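import Vale.Agent.P299.H223.FS
import Vale.Agent.P299.H908.Proj
import Vale.Agent.P272.K.AMP.Iface
import Mathlib.Analysis.Matrix.Order

/-!
# P299 : homogeneous polynomials on a projective manifold: the weights `log (Σ|P_i|² / |Z|^{2d})`
-/

open scoped Manifold ContDiff ComplexOrder Topology LinearAlgebra.Projectivization
open Vale.Agent.P272.K Vale.Agent.P300.Final Vale.Agent.P299.H908

noncomputable section

namespace Vale.Agent.P299.H223

variable {n : ℕ} {X : Type} [TopologicalSpace X] [ChartedSpace (Cm n) X] (D : ProjData n X)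

lemma exists_Z_ne (x : X) : ∃ j, D.Z x j ≠ 0 := by
  by_contra h
  push Not at h
  exact D.ne x (funext h)

/-- an index of a nonzero coordinate -/
def jj (x : X) : Fin (D.N + 1) := (exists_Z_ne D x).choose

lemma jj_ne (x : X) : D.Z x (jj D x) ≠ 0 := (exists_Z_ne D x).choose_spec

/-- dehomogenised coordinates -/
def dh (j : Fin (D.N + 1)) (y : X) : Fin (D.N + 1) → ℂ := fun i => D.Z y i / D.Z y j

lemma dh_eq_smul (j : Fin (D.N + 1)) (y : X) : dh D j y = (D.Z y j)⁻¹ • D.Z y := by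
  funext i
  simp only [dh, Pi.smul_apply, smul_eq_mul]
  rw [div_eq_inv_mul]

lemma dh_self {j : Fin (D.N + 1)} {y : X} (h : D.Z y j ≠ 0) : dh D j y j = 1 := div_self h

lemma dh_ne {j : Fin (D.N + 1)} {y : X} (h : D.Z y j ≠ 0) : dh D j y ≠ 0 := by
  intro h0
  have := congrFun h0 j
  rw [dh_self D h] at this
  exact one_ne_zero this

/-- the domain of the `j`-th dehomogenised coordinates -/
def Wj (j : Fin (D.N + 1)) : Set X := {y | D.Z y j ≠ 0}

lemma isOpen_Wj (j : Fin (D.N + 1)) : IsOpen (Wj D j) := by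
  rw [isOpen_iff_mem_nhds]
  intro x hx
  obtain ⟨W, s, hW, hs, hsZ⟩ := D.loc x
  have hxW : x ∈ W := mem_of_mem_nhds hW
  have h1 : ContinuousAt (fun y => s y j) x := (hs x hxW j).continuousAt
  have h2 : s x j ≠ 0 := by
    obtain ⟨c, hc, hcx⟩ := hsZ x hxW
    rw [hcx]
    exact mul_ne_zero hc hx
  filter_upwards [h1.eventually_ne h2, hW] with y hy hyW
  obtain ⟨c, hc, hcy⟩ := hsZ y hyW
  intro h0
  apply hy
  rw [hcy]
  simp [h0]

lemma dh_holo {j : Fin (D.N + 1)} {x : X} (h : D.Z x j ≠ 0) {e : Chart n X} (he : At e x) :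
    ContDiffAt ℂ ω (fun z => dh D j (e.symm z)) (e x) := by
  rw [contDiffAt_pi]
  intro i
  exact (D.holAt_ratio i j h e he).contDiffAt

/-- the projective point -/
def Ph (x : X) : ℙ ℂ (Fin (D.N + 1) → ℂ) := Projectivization.mk ℂ (D.Z x) (D.ne x)

lemma isLift_dh (j : Fin (D.N + 1)) : IsLift n (Ph D) (Wj D j) (dh D j) := by
  refine ⟨isOpen_Wj D j, fun x hx e he => dh_holo D hx he, fun x hx => dh_ne D hx, ?_, ?_⟩
  · intro x hx
    rw [Ph, Projectivization.mk_eq_mk_iff]
    have hx' : D.Z x j ≠ 0 := hx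
    refine ⟨Units.mk0 (D.Z x j) hx', ?_⟩
    rw [dh_eq_smul, Units.smul_def, Units.val_mk0, smul_smul, mul_inv_cancel₀ hx', one_smul]
  · intro x hx e he v c hv
    have hd : DifferentiableAt ℂ (fun z => dh D j (e.symm z)) (e x) :=
      (dh_holo D hx he).differentiableAt (by simp)
    have hc : Filter.Tendsto e.symm (𝓝 (e x)) (𝓝 x) := by
      have := e.continuousAt_symm he.mem_target
      rwa [ContinuousAt, he.left_inv] at this
    -- the `j`-th component is constant
    have h1 : fderiv ℂ (fun z => dh D j (e.symm z)) (e x) v j = 0 := by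
      have h2 : (fun z => dh D j (e.symm z) j) =ᶠ[𝓝 (e x)] fun _ => (1 : ℂ) := by
        filter_upwards [hc.eventually ((isOpen_Wj D j).mem_nhds hx)] with z hz
        exact dh_self D hz
      have h3 : fderiv ℂ (fun z => dh D j (e.symm z)) (e x) v j =
          fderiv ℂ (fun z => dh D j (e.symm z) j) (e x) v := by
        rw [fderiv_apply hd j]; rfl
      rw [h3, h2.fderiv_eq]
      simp
    have hc0 : c = 0 := by
      have := congrFun hv j
      rw [h1, Pi.smul_apply, dh_self D hx, smul_eq_mul, mul_one] at this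
      exact this.symm
    refine D.imm e x he j hx v fun i => ?_
    have h3 : fderiv ℂ (fun z => dh D j (e.symm z)) (e x) v i =
        fderiv ℂ (fun z => dh D j (e.symm z) i) (e x) v := by
      rw [fderiv_apply hd i]; rfl
    show fderiv ℂ (fun z => dh D j (e.symm z) i) (e x) v = 0
    rw [← h3, hv, hc0]
    simp

/-- the dehomogenised coordinates as lifts -/
def liftsD : Lifts n (Ph D) where
  W := fun x => Wj D (jj D x)
  s := fun x => dh D (jj D x)
  mem := jj_ne D
  lift := fun _ => isLift_dh D _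

/-- the Fubini–Study form -/
def fsD : Chart n X → Cm n → Matrix (Fin n) (Fin n) ℂ := (liftsD D).fs

theorem isKahler_fsD [IsManifold 𝓘(ℂ, Cm n) ω X] : IsKahler (fsD D) := (liftsD D).isKahler

variable {r d : ℕ} (P : Fin r → MvPolynomial (Fin (D.N + 1)) ℂ)

/-- the values of the polynomials `P_i` at a vector -/
def evP (v : Fin (D.N + 1) → ℂ) : Fin r → ℂ := fun i => MvPolynomial.eval v (P i)

lemma evP_smul (hP : ∀ i, (P i).IsHomogeneous d) (c : ℂ) (v : Fin (D.N + 1) → ℂ) :
    evP D P (c • v) = c ^ d • evP D P v := by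
  funext i
  simp only [evP, Pi.smul_apply, smul_eq_mul]
  rw [MvPolynomial.eval_eq, MvPolynomial.eval_eq, Finset.mul_sum]
  refine Finset.sum_congr rfl fun α hα => ?_
  have h1 : ∏ i ∈ α.support, (c • v) i ^ α i = c ^ d * ∏ i ∈ α.support, v i ^ α i := by
    have h2 : ∑ i ∈ α.support, α i = d := by
      have := hP i (MvPolynomial.mem_support_iff.1 hα)
      rw [← this, Finsupp.weight_apply, Finsupp.sum]
      simp
    rw [← h2, ← Finset.prod_pow_eq_pow_sum, ← Finset.prod_mul_distrib]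
    refine Finset.prod_congr rfl fun i _ => ?_
    simp only [Pi.smul_apply, smul_eq_mul, mul_pow]
  rw [h1]
  ring

/-- `Σ|P_i(Z)|² / |Z|^{2d}` -/
def qP (d : ℕ) (x : X) : ℝ := nsq (evP D P (D.Z x)) / nsq (D.Z x) ^ d

lemma nsqZ_pos (x : X) : 0 < nsq (D.Z x) := nsq_pos (D.ne x)

lemma qP_nonneg (x : X) : 0 ≤ qP D P d x :=
  div_nonneg (nsq_nonneg _) (pow_nonneg (nsq_nonneg _) _)

lemma qP_eq (hP : ∀ i, (P i).IsHomogeneous d) {x : X} {j : Fin (D.N + 1)} (hj : D.Z x j ≠ 0) :
    qP D P d x = nsq (evP D P (dh D j x)) / nsq (dh D j x) ^ d := by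
  have h0 : ‖(D.Z x j)⁻¹‖ ≠ 0 := norm_ne_zero_iff.2 (inv_ne_zero hj)
  have h1 : nsq (D.Z x) ^ d ≠ 0 := pow_ne_zero _ (nsqZ_pos D x).ne'
  rw [qP, dh_eq_smul, evP_smul D P hP, nsq_smul, nsq_smul, norm_pow, mul_pow, ← pow_mul,
    ← pow_mul, mul_comm d 2]
  rw [mul_div_mul_left _ _ (pow_ne_zero _ h0)]

/-- the set where some `P_i` does not vanish -/
def OmP : Set X := {x | evP D P (D.Z x) ≠ 0}

lemma evP_dh_ne (hP : ∀ i, (P i).IsHomogeneous d) {x : X} {j : Fin (D.N + 1)} (hj : D.Z x j ≠ 0) :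
    evP D P (dh D j x) ≠ 0 ↔ x ∈ OmP D P := by
  rw [dh_eq_smul, evP_smul D P hP, OmP, Set.mem_ofPred_eq, ne_eq, smul_eq_zero, not_or]
  exact ⟨fun h => h.2, fun h => ⟨pow_ne_zero _ (inv_ne_zero hj), h⟩⟩

lemma qP_pos_iff (x : X) : 0 < qP D P d x ↔ x ∈ OmP D P := by
  have h1 : 0 < nsq (D.Z x) ^ d := pow_pos (nsqZ_pos D x) _
  rw [qP, div_pos_iff_of_pos_right h1]
  constructor
  · intro h h0
    rw [h0] at h
    simp [nsq] at h
  · intro h
    exact nsq_pos h

/-- the composition of the polynomials with holomorphic coordinates is holomorphic -/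
lemma evP_holo {F : Cm n → Fin (D.N + 1) → ℂ} {z : Cm n} (hF : ContDiffAt ℂ ω F z) :
    ContDiffAt ℂ ω (fun y => evP D P (F y)) z := by
  rw [contDiffAt_pi]
  intro i
  simp only [evP, MvPolynomial.eval_eq]
  refine ContDiffAt.sum fun α _ => contDiffAt_const.mul ?_
  exact contDiffAt_prod fun k _ => (comp_cd hF k).pow _

lemma qP_near (hP : ∀ i, (P i).IsHomogeneous d) {x : X} {j : Fin (D.N + 1)} (hj : D.Z x j ≠ 0)
    {e : Chart n X} (he : At e x) : (fun z => qP D P d (e.symm z)) =ᶠ[𝓝 (e x)]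
      fun z => nsq (evP D P (dh D j (e.symm z))) / nsq (dh D j (e.symm z)) ^ d := by
  have hc : Filter.Tendsto e.symm (𝓝 (e x)) (𝓝 x) := by
    have := e.continuousAt_symm he.mem_target
    rwa [ContinuousAt, he.left_inv] at this
  filter_upwards [hc.eventually ((isOpen_Wj D j).mem_nhds hj)] with z hz
  exact qP_eq D P hP hz

lemma smooth_qP (hP : ∀ i, (P i).IsHomogeneous d) : SmoothFn (n := n) (qP D P d) := by
  intro e x he
  have hj := jj_ne D x
  have h1 := dh_holo D hj he
  have h0 : (fun z => dh D (jj D x) (e.symm z)) (e x) ≠ 0 := by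
    show dh D (jj D x) (e.symm (e x)) ≠ 0
    rw [he.left_inv]; exact dh_ne D hj
  refine ContDiffAt.congr_of_eventuallyEq ?_ (qP_near D P hP hj he)
  refine (smooth_nsq (evP_holo D P h1)).div ((smooth_nsq h1).pow d) ?_
  exact pow_ne_zero _ (nsq_pos h0).ne'

lemma continuous_of_smoothFn {u : X → ℝ} (hu : SmoothFn (n := n) u) : Continuous u := by
  rw [continuous_iff_continuousAt]
  intro x
  have hx : At (chartAt (Cm n) x : Chart n X) x := ⟨chart_mem_atlas _ _, mem_chart_source _ _⟩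
  have h1 := (hu _ x hx).continuousAt
  have h2 : ContinuousAt (chartAt (Cm n) x) x := (chartAt (Cm n) x).continuousAt hx.2
  have h3 : ContinuousAt (fun y => u ((chartAt (Cm n) x).symm (chartAt (Cm n) x y))) x :=
    ContinuousAt.comp (g := fun z => u ((chartAt (Cm n) x).symm z)) h1 h2
  refine h3.congr ?_
  filter_upwards [(chartAt (Cm n) x).open_source.mem_nhds hx.2] with y hy
  rw [(chartAt (Cm n) x).left_inv hy]

lemma isOpen_OmP (hP : ∀ i, (P i).IsHomogeneous d) : IsOpen (OmP D P) := by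
  have h := continuous_of_smoothFn (smooth_qP D P hP)
  have : OmP D P = {x | 0 < qP D P d x} := by
    ext x; exact (qP_pos_iff D P x).symm
  rw [this]
  exact isOpen_lt continuous_const h

/-- the form `i∂∂̄ log Σ|P_i|²` on `{P ≠ 0}` -/
def beP : Chart n X → Cm n → Matrix (Fin n) (Fin n) ℂ := fun e z =>
  fsM (fun y => evP D P (dh D (jj D (e.symm z)) (e.symm y))) z

/-- `β` can be computed with every index -/
lemma beP_eq (hP : ∀ i, (P i).IsHomogeneous d) {x : X} (hx : x ∈ OmP D P) {j : Fin (D.N + 1)}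
    (hj : D.Z x j ≠ 0) {e : Chart n X} (he : At e x) :
    beP D P e (e x) = fsM (fun y => evP D P (dh D j (e.symm y))) (e x) := by
  have hc : Filter.Tendsto e.symm (𝓝 (e x)) (𝓝 x) := by
    have := e.continuousAt_symm he.mem_target
    rwa [ContinuousAt, he.left_inv] at this
  unfold beP
  rw [he.left_inv]
  have hjj := jj_ne D x
  refine fsM_congr (evP_holo D P (dh_holo D hjj he)) (evP_holo D P (dh_holo D hj he)) ?_ ?_ ?_
  · show evP D P (dh D (jj D x) (e.symm (e x))) ≠ 0
    rw [he.left_inv]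
    exact (evP_dh_ne D P hP hjj).2 hx
  · show evP D P (dh D j (e.symm (e x))) ≠ 0
    rw [he.left_inv]
    exact (evP_dh_ne D P hP hj).2 hx
  · filter_upwards [hc.eventually ((isOpen_Wj D j).mem_nhds hj),
      hc.eventually ((isOpen_Wj D _).mem_nhds hjj)] with z hz hz'
    refine ⟨((D.Z (e.symm z) (jj D x))⁻¹ * D.Z (e.symm z) j) ^ d, ?_⟩
    rw [dh_eq_smul, dh_eq_smul, evP_smul D P hP, evP_smul D P hP, smul_smul, ← mul_pow, mul_assoc,
      mul_inv_cancel₀ hz, mul_one]

/-- `β = d ω_FS + i∂∂̄ log q` on `{P ≠ 0}` -/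
theorem beP_eq_add [IsManifold 𝓘(ℂ, Cm n) ω X] (hP : ∀ i, (P i).IsHomogeneous d) {x : X} (hx : x ∈ OmP D P)
    {e : Chart n X} (he : At e x) : beP D P e (e x) = (d : ℂ) • fsD D e (e x) +
      cHess (fun y => Real.log (qP D P d (e.symm y))) (e x) := by
  have hj := jj_ne D x
  set j := jj D x with hjdef
  have hc : Filter.Tendsto e.symm (𝓝 (e x)) (𝓝 x) := by
    have := e.continuousAt_symm he.mem_target
    rwa [ContinuousAt, he.left_inv] at this
  have h1 := dh_holo D hj he
  have h2 := evP_holo D P h1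
  have h10 : (fun z => dh D j (e.symm z)) (e x) ≠ 0 := by
    show dh D j (e.symm (e x)) ≠ 0
    rw [he.left_inv]; exact dh_ne D hj
  have h20 : (fun z => evP D P (dh D j (e.symm z))) (e x) ≠ 0 := by
    show evP D P (dh D j (e.symm (e x))) ≠ 0
    rw [he.left_inv]
    exact (evP_dh_ne D P hP hj).2 hx
  have s1 : ContDiffAt ℝ 2 (fun z => Real.log (nsq (dh D j (e.symm z)))) (e x) :=
    (smooth_log_nsq h1 h10).of_le (by exact WithTop.coe_le_coe.2 le_top)
  have s2 : ContDiffAt ℝ 2 (fun z => Real.log (nsq (evP D P (dh D j (e.symm z))))) (e x) :=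
    (smooth_log_nsq h2 h20).of_le (by exact WithTop.coe_le_coe.2 le_top)
  rw [beP_eq D P hP hx hj he, fsD, (liftsD D).fs_eq (isLift_dh D j) he hj]
  unfold fsM
  have hev : (fun y => Real.log (qP D P d (e.symm y))) =ᶠ[𝓝 (e x)] fun y =>
      Real.log (nsq (evP D P (dh D j (e.symm y)))) - d * Real.log (nsq (dh D j (e.symm y))) := by
    have hO : ∀ᶠ z in 𝓝 (e x), e.symm z ∈ OmP D P :=
      hc.eventually ((isOpen_OmP D P hP).mem_nhds hx)
    filter_upwards [qP_near D P hP hj he, hO, hc.eventually ((isOpen_Wj D j).mem_nhds hj)]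
      with z hz hzO hzW
    rw [hz, Real.log_div, Real.log_pow]
    · exact (nsq_pos ((evP_dh_ne D P hP hzW).2 hzO)).ne'
    · exact pow_ne_zero _ (nsq_pos (dh_ne D hzW)).ne'
  have s3 : ContDiffAt ℝ 2 (fun z => (d : ℝ) * Real.log (nsq (dh D j (e.symm z)))) (e x) :=
    contDiffAt_const.mul s1
  rw [cHess_congr hev, cHess_sub s2 s3, cHess_const_mul _ s1]
  simp

/-- `β ≥ 0` -/
theorem beP_posSemidef (hP : ∀ i, (P i).IsHomogeneous d) {x : X} (hx : x ∈ OmP D P)
    {e : Chart n X} (he : At e x) : (beP D P e (e x)).PosSemidef := by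
  have hj := jj_ne D x
  have h1 := dh_holo D hj he
  have h2 := evP_holo D P h1
  have h20 : (fun z => evP D P (dh D (jj D x) (e.symm z))) (e x) ≠ 0 := by
    show evP D P (dh D (jj D x) (e.symm (e x))) ≠ 0
    rw [he.left_inv]
    exact (evP_dh_ne D P hP hj).2 hx
  rw [beP_eq D P hP hx hj he]
  refine Matrix.PosSemidef.of_dotProduct_mulVec_nonneg (fsM_isHermitian h2 h20) fun v => ?_
  rw [fsM_quad h2 h20 v]
  have : (0 : ℝ) ≤ (nsq ((fun z => evP D P (dh D (jj D x) (e.symm z))) (e x)))⁻¹ :=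
    inv_nonneg.2 (nsq_nonneg _)
  exact_mod_cast mul_nonneg this (nsq_nonneg _)

/-- `β` kills the conjugates of the vectors `v` killed by the differentials of the ratios
`P_i / P_{i₀}` -/
theorem beP_mulVec_star (hP : ∀ i, (P i).IsHomogeneous d) {x : X} {i₀ : Fin r}
    (hx : MvPolynomial.eval (D.Z x) (P i₀) ≠ 0) {e : Chart n X} (he : At e x) {v : Cm n}
    (hv : ∀ i, fderiv ℂ (fun z => MvPolynomial.eval (D.Z (e.symm z)) (P i) /
      MvPolynomial.eval (D.Z (e.symm z)) (P i₀)) (e x) v = 0) :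
    (beP D P e (e x)).mulVec (star v) = 0 := by
  have hxO : x ∈ OmP D P := fun h0 => hx (congrFun h0 i₀)
  have hj := jj_ne D x
  set j := jj D x with hjdef
  have hc : Filter.Tendsto e.symm (𝓝 (e x)) (𝓝 x) := by
    have := e.continuousAt_symm he.mem_target
    rwa [ContinuousAt, he.left_inv] at this
  have h1 := dh_holo D hj he
  have h2 := evP_holo D P h1
  set F : Cm n → Fin r → ℂ := fun z => evP D P (dh D j (e.symm z)) with hF
  have h20 : F (e x) ≠ 0 := by
    show evP D P (dh D j (e.symm (e x))) ≠ 0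
    rw [he.left_inv]
    exact (evP_dh_ne D P hP hj).2 hxO
  have hF0 : F (e x) i₀ ≠ 0 := by
    show evP D P (dh D j (e.symm (e x))) i₀ ≠ 0
    rw [he.left_inv, dh_eq_smul, evP_smul D P hP]
    exact mul_ne_zero (pow_ne_zero _ (inv_ne_zero hj)) hx
  have hd : ∀ i, DifferentiableAt ℂ (fun z => F z i) (e x) := fun i =>
    (comp_cd h2 i).differentiableAt (by simp)
  have hpsd := beP_posSemidef D P hP hxO he
  -- the quadratic form vanishes
  have hratio : ∀ i, (fun z => MvPolynomial.eval (D.Z (e.symm z)) (P i) /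
      MvPolynomial.eval (D.Z (e.symm z)) (P i₀)) =ᶠ[𝓝 (e x)] fun z => F z i / F z i₀ := by
    intro i
    filter_upwards [hc.eventually ((isOpen_Wj D j).mem_nhds hj)] with z hz
    show _ = evP D P (dh D j (e.symm z)) i / evP D P (dh D j (e.symm z)) i₀
    rw [dh_eq_smul, evP_smul D P hP]
    simp only [Pi.smul_apply, smul_eq_mul]
    rw [mul_div_mul_left _ _ (pow_ne_zero _ (inv_ne_zero hz))]
    rfl
  have hder : ∀ i, fderiv ℂ F (e x) v i = F (e x) i / F (e x) i₀ *
      fderiv ℂ (fun z => F z i₀) (e x) v := by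
    intro i
    have hq : DifferentiableAt ℂ (fun z => F z i / F z i₀) (e x) := by
      simp only [div_eq_mul_inv]
      exact (hd i).fun_mul ((hd i₀).fun_inv hF0)
    have h3 : (fun z => F z i) =ᶠ[𝓝 (e x)] fun z => F z i / F z i₀ * F z i₀ := by
      filter_upwards [(comp_cd h2 i₀).continuousAt.eventually_ne hF0] with z hz
      rw [div_mul_cancel₀ _ hz]
    have h4 : fderiv ℂ F (e x) v i = fderiv ℂ (fun z => F z i) (e x) v := by
      rw [fderiv_apply (h2.differentiableAt (by simp)) i]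
      rfl
    have h5 := hv i
    rw [(hratio i).fderiv_eq] at h5
    rw [h4, h3.fderiv_eq, fderiv_fun_mul hq (hd i₀)]
    simp only [add_apply, smul_apply, smul_eq_mul]
    rw [h5]
    ring
  have hquad : star (star v) ⬝ᵥ (beP D P e (e x)).mulVec (star v) = 0 := by
    rw [beP_eq D P hP hxO hj he]
    show star (star v) ⬝ᵥ (fsM F (e x)).mulVec (star v) = 0
    rw [fsM_quad h2 h20 (star v), star_star]
    set a : ℂ := fderiv ℂ (fun z => F z i₀) (e x) v / F (e x) i₀ with ha
    have h6 : ∀ i, fderiv ℂ F (e x) v i = a * F (e x) i := by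
      intro i; rw [hder i, ha]; ring
    have h7 : (∑ i, fderiv ℂ F (e x) v i * cj (F (e x) i)) / ((nsq (F (e x)) : ℝ) : ℂ) = a := by
      have h8 : ((nsq (F (e x)) : ℝ) : ℂ) ≠ 0 := by exact_mod_cast (nsq_pos h20).ne'
      rw [div_eq_iff h8, nsq_cast, Finset.mul_sum]
      refine Finset.sum_congr rfl fun i _ => ?_
      rw [h6 i]; ring
    rw [h7]
    have h9 : (fun i => fderiv ℂ F (e x) v i - a * F (e x) i) = 0 := by
      funext i; rw [h6 i]; simp
    rw [h9]
    simp [nsq]
  exact (hpsd.dotProduct_mulVec_zero_iff (star v)).1 hquad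

end Vale.Agent.P299.H223
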