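import Vale.Agent.P272.K.C2.Wirt
import Vale.Agent.P272.K.Inv.Hess
import Vale.Agent.P272.K.Asm.Weak

/-!
# P299 : the Fubini–Study form `i∂∂̄ log Σ|F_i|²` of holomorphic homogeneous coordinates
-/

open scoped Manifold ContDiff ComplexOrder Topology
open Vale.Agent.P272.K

noncomputable section

namespace Vale.Agent.P299.H223

variable {n M : ℕ}

/-- `Σ |F_i|²` -/
def nsq (v : Fin M → ℂ) : ℝ := ∑ i, ‖v i‖ ^ 2

lemma nsq_nonneg (v : Fin M → ℂ) : 0 ≤ nsq v := Finset.sum_nonneg fun i _ => by positivity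

lemma nsq_eq_zero {v : Fin M → ℂ} : nsq v = 0 ↔ v = 0 := by
  constructor
  · intro h
    funext i
    have := (Finset.sum_eq_zero_iff_of_nonneg (fun i _ => by positivity)).1 h i (Finset.mem_univ i)
    simpa using this
  · rintro rfl; simp [nsq]

lemma nsq_pos {v : Fin M → ℂ} (h : v ≠ 0) : 0 < nsq v :=
  lt_of_le_of_ne (nsq_nonneg v) fun h' => h (nsq_eq_zero.1 h'.symm)

lemma nsq_smul (c : ℂ) (v : Fin M → ℂ) : nsq (c • v) = ‖c‖ ^ 2 * nsq v := by
  simp only [nsq, Finset.mul_sum, Pi.smul_apply, smul_eq_mul, norm_mul, mul_pow]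

lemma nsq_cast (v : Fin M → ℂ) : ((nsq v : ℝ) : ℂ) = ∑ i, v i * cj (v i) := by
  simp only [nsq, Complex.ofReal_sum]
  refine Finset.sum_congr rfl fun i _ => ?_
  rw [show cj (v i) = (starRingEnd ℂ) (v i) from rfl, Complex.mul_conj, Complex.normSq_eq_norm_sq]

/-- the coefficient matrix of `i∂∂̄ log Σ|F_i|²` -/
def fsM (F : Cm n → Fin M → ℂ) (z : Cm n) : Matrix (Fin n) (Fin n) ℂ :=
  cHess (fun y => Real.log (nsq (F y))) z

variable {F G : Cm n → Fin M → ℂ} {z : Cm n}

lemma comp_cd (hF : ContDiffAt ℂ ω F z) (i : Fin M) : ContDiffAt ℂ ω (fun y => F y i) z :=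
  (contDiffAt_pi.1 hF) i

lemma smooth_nsq (hF : ContDiffAt ℂ ω F z) : ContDiffAt ℝ ∞ (fun y => nsq (F y)) z := by
  unfold nsq
  refine ContDiffAt.sum fun i _ => ?_
  have h : ContDiffAt ℝ ∞ (fun y => F y i) z :=
    ((comp_cd hF i).restrict_scalars ℝ).of_le (by simp)
  exact h.norm_sq ℝ

lemma smooth_log_nsq (hF : ContDiffAt ℂ ω F z) (h0 : F z ≠ 0) :
    ContDiffAt ℝ ∞ (fun y => Real.log (nsq (F y))) z :=
  (smooth_nsq hF).log (nsq_pos h0).ne'

lemma dzb_nsq (hF : ContDiffAt ℂ ω F z) (k : Fin n) :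
    dzb k (fun y => ((nsq (F y) : ℝ) : ℂ)) z = ∑ i, F z i * cj (dz k (fun y => F y i) z) := by
  have h1 : (fun y => ((nsq (F y) : ℝ) : ℂ)) = fun y => ∑ i, F y i * cj (F y i) := by
    funext y; exact nsq_cast _
  rw [h1, dzb_sum (F := fun i y => F y i * cj (F y i))]
  · refine Finset.sum_congr rfl fun i _ => ?_
    have hd : DifferentiableAt ℂ (fun y => F y i) z := (comp_cd hF i).differentiableAt (by simp)
    have hd' : DifferentiableAt ℝ (fun y => F y i) z := hd.restrictScalars ℝ
    have hc : DifferentiableAt ℝ (fun y => cj (F y i)) z :=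
      Complex.conjCLE.differentiableAt.comp z hd'
    rw [dzb_mul hd' hc, dzb_of_holo hd, dzb_cj hd']
    ring
  · intro i _
    have hd : DifferentiableAt ℂ (fun y => F y i) z := (comp_cd hF i).differentiableAt (by simp)
    have hd' : DifferentiableAt ℝ (fun y => F y i) z := hd.restrictScalars ℝ
    exact hd'.mul (Complex.conjCLE.differentiableAt.comp z hd')

lemma dz_nsq (hF : ContDiffAt ℂ ω F z) (k : Fin n) :
    dz k (fun y => ((nsq (F y) : ℝ) : ℂ)) z = ∑ i, dz k (fun y => F y i) z * cj (F z i) := by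
  have h1 : (fun y => ((nsq (F y) : ℝ) : ℂ)) = fun y => ∑ i, F y i * cj (F y i) := by
    funext y; exact nsq_cast _
  rw [h1, dz_sum (F := fun i y => F y i * cj (F y i))]
  · refine Finset.sum_congr rfl fun i _ => ?_
    have hd : DifferentiableAt ℂ (fun y => F y i) z := (comp_cd hF i).differentiableAt (by simp)
    have hd' : DifferentiableAt ℝ (fun y => F y i) z := hd.restrictScalars ℝ
    have hc : DifferentiableAt ℝ (fun y => cj (F y i)) z :=
      Complex.conjCLE.differentiableAt.comp z hd'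
    rw [dz_mul hd' hc, dz_cj hd', dzb_of_holo hd]
    simp only [cj, map_zero]
    ring
  · intro i _
    have hd : DifferentiableAt ℂ (fun y => F y i) z := (comp_cd hF i).differentiableAt (by simp)
    have hd' : DifferentiableAt ℝ (fun y => F y i) z := hd.restrictScalars ℝ
    exact hd'.mul (Complex.conjCLE.differentiableAt.comp z hd')

/-- `∂_k F_i` is holomorphic -/
lemma dz_comp_cd {f : Cm n → ℂ} (hf : ContDiffAt ℂ ω f z) (k : Fin n) :
    ContDiffAt ℂ ω (dz k f) z := by
  have h1 : ContDiffAt ℂ ω (fderiv ℂ f) z := hf.fderiv_right (m := ω) (by exact le_top)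
  have h3 : ContDiffAt ℂ ω (fun y => fderiv ℂ f y (Pi.single k 1)) z :=
    h1.clm_apply contDiffAt_const
  refine h3.congr_of_eventuallyEq ?_
  have h4 : ∀ᶠ y in 𝓝 z, ContDiffAt ℂ ω f y := hf.eventually (by simp)
  filter_upwards [h4] with y hy
  exact dz_of_holo (hy.differentiableAt (by simp))

lemma cHess_nsq (hF : ContDiffAt ℂ ω F z) (j k : Fin n) :
    cHess (fun y => nsq (F y)) z j k =
      ∑ i, dz j (fun y => F y i) z * cj (dz k (fun y => F y i) z) := by
  rw [cHess_apply]
  have hev : ∀ᶠ y in 𝓝 z, ContDiffAt ℂ ω F y := hF.eventually (by simp)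
  have h1 : dzb k (fun y => ((nsq (F y) : ℝ) : ℂ)) =ᶠ[𝓝 z]
      fun y => ∑ i, F y i * cj (dz k (fun y => F y i) y) := by
    filter_upwards [hev] with y hy using dzb_nsq hy k
  have hd : ∀ i, DifferentiableAt ℂ (fun y => F y i) z := fun i =>
    (comp_cd hF i).differentiableAt (by simp)
  have hd' : ∀ i, DifferentiableAt ℝ (fun y => F y i) z := fun i => (hd i).restrictScalars ℝ
  have hk : ∀ i, DifferentiableAt ℂ (dz k fun y => F y i) z := fun i =>
    (dz_comp_cd (comp_cd hF i) k).differentiableAt (by simp)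
  have hk' : ∀ i, DifferentiableAt ℝ (dz k fun y => F y i) z := fun i => (hk i).restrictScalars ℝ
  have hc : ∀ i, DifferentiableAt ℝ (fun y => cj (dz k (fun y => F y i) y)) z := fun i =>
    Complex.conjCLE.differentiableAt.comp z (hk' i)
  rw [dz_congr h1, dz_sum (F := fun i y => F y i * cj (dz k (fun y => F y i) y)) Finset.univ
    fun i _ => (hd' i).mul (hc i)]
  refine Finset.sum_congr rfl fun i _ => ?_
  rw [dz_mul (hd' i) (hc i), dz_cj (hk' i), dzb_of_holo (hk i)]
  simp only [cj, map_zero]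
  ring

lemma fsM_apply (hF : ContDiffAt ℂ ω F z) (h0 : F z ≠ 0) (j k : Fin n) :
    fsM F z j k = ((nsq (F z) : ℝ) : ℂ)⁻¹ *
      (∑ i, dz j (fun y => F y i) z * cj (dz k (fun y => F y i) z)) -
      (((nsq (F z) : ℝ) : ℂ) ^ 2)⁻¹ * ((∑ i, dz j (fun y => F y i) z * cj (F z i)) *
        (∑ i, F z i * cj (dz k (fun y => F y i) z))) := by
  unfold fsM
  rw [C2.cHess_log ((smooth_nsq hF).of_le (by exact WithTop.coe_le_coe.2 le_top)) (nsq_pos h0),
    cHess_nsq hF, dz_nsq hF, dzb_nsq hF]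

lemma fsM_isHermitian (hF : ContDiffAt ℂ ω F z) (h0 : F z ≠ 0) : (fsM F z).IsHermitian :=
  cHess_isHermitian ((smooth_log_nsq hF h0).of_le (by exact WithTop.coe_le_coe.2 le_top))

/-- the quadratic form of the Fubini–Study matrix -/
lemma fsM_quad (hF : ContDiffAt ℂ ω F z) (h0 : F z ≠ 0) (x : Cm n) :
    star x ⬝ᵥ (fsM F z).mulVec x = (((nsq (F z))⁻¹ * nsq (fun i =>
      fderiv ℂ F z (star x) i - (∑ i, fderiv ℂ F z (star x) i * cj (F z i)) /
        ((nsq (F z) : ℝ) : ℂ) * F z i) : ℝ) : ℂ) := by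
  set u : ℂ := ((nsq (F z) : ℝ) : ℂ) with hu
  have hu0 : u ≠ 0 := by rw [hu]; exact_mod_cast (nsq_pos h0).ne'
  set g : Fin M → ℂ := fun i => fderiv ℂ F z (star x) i with hg
  have hdF : DifferentiableAt ℂ F z := hF.differentiableAt (by simp)
  -- `g_i = Σ_j ∂_j F_i conj x_j`
  have hgi : ∀ i, g i = ∑ j, dz j (fun y => F y i) z * cj (x j) := by
    intro i
    have hv : star x = ∑ j, (cj (x j)) • (Pi.single j (1 : ℂ) : Cm n) := by
      funext j
      simp only [Finset.sum_apply, Pi.smul_apply, Pi.star_apply]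
      rw [Finset.sum_eq_single j]
      · simp
      · intro b _ hb; simp [hb.symm]
      · simp
    rw [hg]
    simp only []
    rw [hv, map_sum, Finset.sum_apply]
    refine Finset.sum_congr rfl fun j _ => ?_
    rw [map_smul, Pi.smul_apply, smul_eq_mul, mul_comm]
    congr 1
    rw [dz_of_holo ((comp_cd hF i).differentiableAt (by simp)), fderiv_apply hdF i]
    rfl
  have hA : ∑ j, ∑ k, cj (x j) * (∑ i, dz j (fun y => F y i) z * cj (dz k (fun y => F y i) z)) * x k
      = ∑ i, g i * cj (g i) := by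
    have : ∀ i, g i * cj (g i) = ∑ j, ∑ k, cj (x j) *
        (dz j (fun y => F y i) z * cj (dz k (fun y => F y i) z)) * x k := by
      intro i
      rw [hgi i]
      simp only [cj, map_sum, map_mul, Complex.conj_conj]
      rw [Finset.sum_mul_sum]
      refine Finset.sum_congr rfl fun j _ => Finset.sum_congr rfl fun k _ => ?_
      ring
    rw [Finset.sum_congr rfl fun i _ => this i]
    conv_rhs => rw [Finset.sum_comm]
    refine Finset.sum_congr rfl fun j _ => ?_
    conv_rhs => rw [Finset.sum_comm]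
    refine Finset.sum_congr rfl fun k _ => ?_
    rw [Finset.mul_sum, Finset.sum_mul]
  have hB : ∑ j, cj (x j) * (∑ i, dz j (fun y => F y i) z * cj (F z i)) = ∑ i, g i * cj (F z i) := by
    have : ∀ i, g i * cj (F z i) = ∑ j, cj (x j) * (dz j (fun y => F y i) z * cj (F z i)) := by
      intro i
      rw [hgi i, Finset.sum_mul]
      refine Finset.sum_congr rfl fun j _ => by ring
    rw [Finset.sum_congr rfl fun i _ => this i, Finset.sum_comm]
    refine Finset.sum_congr rfl fun j _ => ?_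
    rw [Finset.mul_sum]
  have hC : ∑ k, (∑ i, F z i * cj (dz k (fun y => F y i) z)) * x k = ∑ i, F z i * cj (g i) := by
    have : ∀ i, F z i * cj (g i) = ∑ k, F z i * cj (dz k (fun y => F y i) z) * x k := by
      intro i
      rw [hgi i]
      simp only [cj, map_sum, map_mul, Complex.conj_conj]
      rw [Finset.mul_sum]
      refine Finset.sum_congr rfl fun k _ => by ring
    rw [Finset.sum_congr rfl fun i _ => this i, Finset.sum_comm]
    refine Finset.sum_congr rfl fun k _ => ?_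
    rw [Finset.sum_mul]
  have hquad : star x ⬝ᵥ (fsM F z).mulVec x = u⁻¹ * (∑ i, g i * cj (g i)) -
      (u ^ 2)⁻¹ * ((∑ i, g i * cj (F z i)) * (∑ i, F z i * cj (g i))) := by
    rw [← hA, ← hB, ← hC]
    simp only [dotProduct, Matrix.mulVec, Pi.star_apply]
    rw [Finset.mul_sum, Finset.sum_mul_sum, Finset.mul_sum, ← Finset.sum_sub_distrib]
    refine Finset.sum_congr rfl fun j _ => ?_
    rw [Finset.mul_sum, Finset.mul_sum, Finset.mul_sum, ← Finset.sum_sub_distrib]
    refine Finset.sum_congr rfl fun k _ => ?_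
    rw [fsM_apply hF h0]
    show (starRingEnd ℂ) (x j) * _ = _
    simp only [cj]
    ring
  rw [hquad]
  set c : ℂ := (∑ i, g i * cj (F z i)) / u with hc
  have hcu : ∑ i, g i * cj (F z i) = c * u := by rw [hc]; field_simp
  have hcu' : ∑ i, F z i * cj (g i) = cj c * u := by
    have : cj (∑ i, g i * cj (F z i)) = cj (c * u) := by rw [hcu]
    simp only [cj, map_sum, map_mul, Complex.conj_conj] at this
    rw [hu, Complex.conj_ofReal] at this
    rw [← hu] at this
    simp only [cj]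
    rw [← this]
    refine Finset.sum_congr rfl fun i _ => by ring
  push_cast
  rw [nsq_cast (fun i => g i - c * F z i)]
  have hexp : ∑ i, (g i - c * F z i) * cj (g i - c * F z i) = (∑ i, g i * cj (g i)) -
      cj c * (∑ i, g i * cj (F z i)) - c * (∑ i, F z i * cj (g i)) +
      c * cj c * ∑ i, F z i * cj (F z i) := by
    rw [Finset.mul_sum, Finset.mul_sum, Finset.mul_sum, ← Finset.sum_sub_distrib,
      ← Finset.sum_sub_distrib, ← Finset.sum_add_distrib]
    refine Finset.sum_congr rfl fun i _ => ?_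
    simp only [cj, map_sub, map_mul]
    ring
  rw [hexp, ← nsq_cast (F z), ← hu, hcu, hcu']
  field_simp
  ring

/-- the Fubini–Study matrix is positive definite for immersive homogeneous coordinates -/
lemma fsM_posDef (hF : ContDiffAt ℂ ω F z) (h0 : F z ≠ 0)
    (himm : ∀ (v : Cm n) (c : ℂ), fderiv ℂ F z v = c • F z → v = 0) : (fsM F z).PosDef := by
  refine Matrix.PosDef.of_dotProduct_mulVec_pos (fsM_isHermitian hF h0) fun x hx => ?_
  rw [fsM_quad hF h0 x]
  have h1 : (0 : ℝ) < (nsq (F z))⁻¹ := inv_pos.2 (nsq_pos h0)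
  have h2 : (fun i => fderiv ℂ F z (star x) i - (∑ i, fderiv ℂ F z (star x) i * cj (F z i)) /
        ((nsq (F z) : ℝ) : ℂ) * F z i) ≠ 0 := by
    intro h
    apply hx
    have h3 := himm (star x) ((∑ i, fderiv ℂ F z (star x) i * cj (F z i)) /
        ((nsq (F z) : ℝ) : ℂ)) (by
      funext i
      have := congrFun h i
      simp only [Pi.zero_apply, sub_eq_zero] at this
      rw [this]; rfl)
    exact star_eq_zero.1 h3
  exact_mod_cast mul_pos h1 (nsq_pos h2)

/-- proportional homogeneous coordinates have the same Fubini–Study form -/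
lemma fsM_congr (hF : ContDiffAt ℂ ω F z) (hG : ContDiffAt ℂ ω G z) (hF0 : F z ≠ 0) (hG0 : G z ≠ 0)
    (h : ∀ᶠ y in 𝓝 z, ∃ c : ℂ, c • G y = F y) : fsM F z = fsM G z := by
  obtain ⟨i, hi⟩ : ∃ i, G z i ≠ 0 := by
    by_contra hcon
    push Not at hcon
    exact hG0 (funext hcon)
  have hFi : F z i ≠ 0 := by
    obtain ⟨c, hc⟩ := h.self_of_nhds
    have hc0 : c ≠ 0 := by
      rintro rfl
      rw [zero_smul] at hc
      exact hF0 hc.symm
    rw [← hc]
    exact mul_ne_zero hc0 hi
  set r : Cm n → ℂ := fun y => F y i / G y i with hr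
  have hrc : ContDiffAt ℂ ω r z := (comp_cd hF i).div (comp_cd hG i) hi
  have hr0 : r z ≠ 0 := div_ne_zero hFi hi
  have hev : ∀ᶠ y in 𝓝 z, Real.log (nsq (F y)) = Real.log (‖r y‖ ^ 2) + Real.log (nsq (G y)) := by
    have h1 : ∀ᶠ y in 𝓝 z, G y i ≠ 0 := (comp_cd hG i).continuousAt.eventually_ne hi
    have h2 : ∀ᶠ y in 𝓝 z, F y i ≠ 0 := (comp_cd hF i).continuousAt.eventually_ne hFi
    filter_upwards [h, h1, h2] with y ⟨c, hc⟩ hy hy2
    have hcr : r y = c := by
      rw [hr]
      simp only []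
      rw [← hc]
      simp only [Pi.smul_apply, smul_eq_mul]
      field_simp
    have hry : r y ≠ 0 := div_ne_zero hy2 hy
    have hG' : G y ≠ 0 := fun h0 => hy (by rw [h0]; rfl)
    rw [← hc, nsq_smul, hcr, Real.log_mul _ (nsq_pos hG').ne']
    rw [← hcr]
    positivity
  unfold fsM
  rw [cHess_congr hev]
  have hlog : ContDiffAt ℝ 2 (fun y => Real.log (‖r y‖ ^ 2)) z := by
    have h1 : ContDiffAt ℝ 2 r z := (hrc.restrict_scalars ℝ).of_le (by simp)
    exact (h1.norm_sq ℝ).log (by positivity)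
  rw [cHess_add hlog ((smooth_log_nsq hG hG0).of_le (by exact WithTop.coe_le_coe.2 le_top)),
    cHess_log_norm_sq hrc hr0, zero_add]

end Vale.Agent.P299.H223
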