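import Vale.Agent.P272.K.Stmt
import Vale.Agent.P300.Final.Defs

/-!
# P299 : the definitions of the final statement

Complex manifolds of dimension `n` are Mathlib manifolds
`[ChartedSpace (Fin n → ℂ) X] [IsManifold 𝓘(ℂ, Fin n → ℂ) ω X]`; tensors and sections are given by
their components in the charts of the atlas (`Vale.Agent.P272.K`: `Chart`, `At`, `jacM`, `cHess`).
`Vale.Agent.P300.Final.IsSmoothProjective` is in `P300/Final/Defs.lean`.
-/

open scoped Manifold ContDiff ComplexOrder

namespace Vale.Agent.P299.Final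

open Vale.Agent.P272.K

variable {n : ℕ} {X : Type*} [TopologicalSpace X] [ChartedSpace (Cm n) X]

/-- `φ` is a smooth Hermitian metric on the anticanonical bundle `-K_X`, given by its weights: in
the chart `e` with coordinates `z_1, …, z_n` the metric is `|∂_1 ∧ … ∧ ∂_n|² = exp (-φ e)`. Its
Chern curvature form `-i∂∂̄ log |∂_1 ∧ … ∧ ∂_n|²` is `i∂∂̄(φ e)`, with coefficient matrix
`cHess (φ e)`. -/
structure IsAnticanonicalMetric (φ : Chart n X → Cm n → ℝ) : Prop where
  smooth : ∀ e x, At e x → ContDiffAt ℝ ∞ (φ e) (e x)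
  change : ∀ e e' x, At e x → At e' x →
    Real.exp (-φ e (e x)) = ‖(jacM e e' x).det‖ ^ 2 * Real.exp (-φ e' (e' x))

/-- The curvature form of the metric `φ` is nonnegative at every point. -/
def IsSemipositive (φ : Chart n X → Cm n → ℝ) : Prop :=
  ∀ e x, At e x → (cHess (φ e) (e x)).PosSemidef

/-- `s` is a holomorphic section of `-mK_X`: in the chart `e` with coordinates `z_1, …, z_n` it is
`s e · (∂_1 ∧ … ∧ ∂_n)^m`. -/
structure IsAnticanonicalSection (m : ℕ) (s : Chart n X → Cm n → ℂ) : Prop where
  holomorphic : ∀ e x, At e x → AnalyticAt ℂ (s e) (e x)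
  change : ∀ e e' x, At e x → At e' x →
    s e (e x) * (jacM e e' x).det ^ m = s e' (e' x)

/-- The section `s` (given in charts) is not identically zero. -/
def IsNonzeroSection (s : Chart n X → Cm n → ℂ) : Prop := ∃ e x, At e x ∧ s e (e x) ≠ 0

/-- **Q1 of P299** (anticanonical nonvanishing): for every smooth connected complex projective
variety `X` whose anticanonical bundle admits a smooth Hermitian metric with semipositive
curvature there is an `m > 0` such that `-mK_X` has a nonzero holomorphic section. -/
def Nonvanishing : Prop :=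
  ∀ (n : ℕ) (X : Type) [TopologicalSpace X] [T2Space X] [CompactSpace X] [ConnectedSpace X]
    [ChartedSpace (Cm n) X] [IsManifold 𝓘(ℂ, Cm n) ω X],
    Vale.Agent.P300.Final.IsSmoothProjective (Cm n) X →
    (∃ φ : Chart n X → Cm n → ℝ, IsAnticanonicalMetric φ ∧ IsSemipositive φ) →
    ∃ m : ℕ, 0 < m ∧ ∃ s : Chart n X → Cm n → ℂ, IsAnticanonicalSection m s ∧ IsNonzeroSection s

end Vale.Agent.P299.Final
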