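import Vale.Agent.P299.H223.FSLocal
import Vale.Agent.P299.H223.Defs
import Vale.Agent.P272.K.Inv.Chart

/-!
# P299 : the Fubini–Study metric of a projective manifold
-/

open scoped Manifold ContDiff ComplexOrder Topology LinearAlgebra.Projectivization
open Vale.Agent.P272.K Vale.Agent.P300.Final

noncomputable section

namespace Vale.Agent.P299.H223

variable {n M : ℕ} {X : Type*} [TopologicalSpace X] [ChartedSpace (Cm n) X]

/-- local homogeneous coordinates of a map `Φ : X → ℙ^{M-1}`, in the vocabulary of charts -/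
structure IsLift (n : ℕ) {M : ℕ} {X : Type*} [TopologicalSpace X] [ChartedSpace (Cm n) X]
    (Φ : X → ℙ ℂ (Fin M → ℂ)) (W : Set X) (s : X → Fin M → ℂ) : Prop where
  isOpen : IsOpen W
  holo : ∀ x ∈ W, ∀ e : Chart n X, At e x → ContDiffAt ℂ ω (fun z => s (e.symm z)) (e x)
  ne : ∀ x ∈ W, s x ≠ 0
  eq : ∀ x (hx : x ∈ W), Φ x = Projectivization.mk ℂ (s x) (ne x hx)
  imm : ∀ x ∈ W, ∀ e : Chart n X, At e x → ∀ (v : Cm n) (c : ℂ),
    fderiv ℂ (fun z => s (e.symm z)) (e x) v = c • s x → v = 0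

/-- two lifts are proportional -/
lemma IsLift.prop {Φ : X → ℙ ℂ (Fin M → ℂ)} {W W' : Set X} {s s' : X → Fin M → ℂ}
    (h : IsLift n Φ W s) (h' : IsLift n Φ W' s') {x : X} (hx : x ∈ W) (hx' : x ∈ W') :
    ∃ c : ℂ, c • s' x = s x := by
  have h1 := h.eq x hx
  rw [h'.eq x hx', Projectivization.mk_eq_mk_iff] at h1
  obtain ⟨a, ha⟩ := h1
  refine ⟨(a : ℂ)⁻¹, ?_⟩
  rw [← ha, Units.smul_def, smul_smul, inv_mul_cancel₀ a.ne_zero, one_smul]

variable [IsManifold 𝓘(ℂ, Cm n) ω X]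

lemma rep_of_contMDiffAt {s : X → Fin M → ℂ} {x : X} {e : Chart n X}
    (hs : ContMDiffAt 𝓘(ℂ, Cm n) 𝓘(ℂ, Fin M → ℂ) ω s x) (h : At e x) :
    ContDiffAt ℂ ω (fun z => s (e.symm z)) (e x) := by
  rw [← contMDiffAt_iff_contDiffAt]
  have h1 := chart_symm_contMDiffAt h.1 h.mem_target
  refine ContMDiffAt.comp (e x) (g := s) ?_ h1
  rw [h.left_inv]
  exact hs

/-- a projective immersion has lifts near every point -/
lemma exists_isLift {Φ : X → ℙ ℂ (Fin M → ℂ)} (hΦ : IsProjectiveImmersion (Cm n) Φ) (x : X) :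
    ∃ (W : Set X) (s : X → Fin M → ℂ), x ∈ W ∧ IsLift n Φ W s := by
  obtain ⟨W, s, hxW, hhol, hco, him⟩ := hΦ x
  have hs : ∀ y ∈ W, ContMDiffAt 𝓘(ℂ, Cm n) 𝓘(ℂ, Fin M → ℂ) ω s y := fun y hy =>
    (hhol.2 y hy).contMDiffAt (hhol.1.mem_nhds hy)
  refine ⟨W, s, hxW, ⟨hhol.1, fun y hy e he => rep_of_contMDiffAt (hs y hy) he,
    fun y hy => (hco y hy).1, fun y hy => (hco y hy).2, ?_⟩⟩
  intro y hy e he v c hv
  -- compare with the chart at `y`
  have hat : At (chartAt (Cm n) y : Chart n X) y := ⟨chart_mem_atlas _ _, mem_chart_source _ _⟩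
  set e' : Chart n X := chartAt (Cm n) y with he'
  have hmd : MDifferentiableAt 𝓘(ℂ, Cm n) 𝓘(ℂ, Fin M → ℂ) s y :=
    (hs y hy).mdifferentiableAt (by simp)
  have hmf : mfderiv 𝓘(ℂ, Cm n) 𝓘(ℂ, Fin M → ℂ) s y = fderiv ℂ (fun z => s (e'.symm z)) (e' y) := by
    have h1 := hmd.mfderiv
    rw [show (Set.range 𝓘(ℂ, Cm n)) = Set.univ from by simp, fderivWithin_univ] at h1
    exact h1
  set τ : Cm n → Cm n := fun z => e' (e.symm z) with hτ
  have hτd : DifferentiableAt ℂ τ (e y) := transition_differentiableAt he hat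
  have hd' : DifferentiableAt ℂ (fun z => s (e'.symm z)) (e' y) :=
    (rep_of_contMDiffAt (hs y hy) hat).differentiableAt (by simp)
  have hτy : τ (e y) = e' y := by rw [hτ]; simp only [he.left_inv]
  have hcomp : fderiv ℂ (fun z => s (e.symm z)) (e y) =
      (fderiv ℂ (fun z => s (e'.symm z)) (e' y)).comp (fderiv ℂ τ (e y)) := by
    have h1 : (fun z => s (e.symm z)) =ᶠ[𝓝 (e y)] (fun z => s (e'.symm z)) ∘ τ := by
      filter_upwards [he.nhds_at hat] with z hz
      show s (e.symm z) = s (e'.symm (e' (e.symm z)))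
      rw [hz.2.2.left_inv]
    rw [h1.fderiv_eq, ← hτy]
    exact fderiv_comp (e y) (by rw [hτy]; exact hd') hτd
  have h3 : fderiv ℂ τ (e y) v = 0 := by
    refine him y hy (fderiv ℂ τ (e y) v) c ?_
    show mfderiv 𝓘(ℂ, Cm n) 𝓘(ℂ, Fin M → ℂ) s y (fderiv ℂ τ (e y) v) = c • s y
    rw [hmf, ← hv, hcomp]
    rfl
  have h4 : (jacM e e' y).mulVec v = 0 := by
    funext p
    have := congrFun h3 p
    rw [jmat_mulVec hτd] at this
    rw [Matrix.mulVec, dotProduct]
    exact this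
  have h5 := congrArg (fun w => (jacM e' e y).mulVec w) h4
  simpa [Matrix.mulVec_mulVec, jacM_mul he hat] using h5

/-- a choice of lifts -/
structure Lifts (n : ℕ) {M : ℕ} {X : Type*} [TopologicalSpace X] [ChartedSpace (Cm n) X]
    (Φ : X → ℙ ℂ (Fin M → ℂ)) where
  W : X → Set X
  s : X → X → Fin M → ℂ
  mem : ∀ x, x ∈ W x
  lift : ∀ x, IsLift n Φ (W x) (s x)

omit [IsManifold 𝓘(ℂ, Cm n) ω X] in
/-- the Fubini–Study form given by the lifts -/
def Lifts.fs {Φ : X → ℙ ℂ (Fin M → ℂ)} (L : Lifts n Φ) :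
    Chart n X → Cm n → Matrix (Fin n) (Fin n) ℂ :=
  fun e z => fsM (fun y => L.s (e.symm z) (e.symm y)) z

/-- the Fubini–Study form can be computed with any lift -/
lemma Lifts.fs_eq {Φ : X → ℙ ℂ (Fin M → ℂ)} (L : Lifts n Φ) {W : Set X}
    {s : X → Fin M → ℂ} (hs : IsLift n Φ W s) {e : Chart n X} {x : X} (h : At e x)
    (hx : x ∈ W) : L.fs e (e x) = fsM (fun y => s (e.symm y)) (e x) := by
  unfold Lifts.fs
  rw [h.left_inv]
  have hL := L.lift x
  have hev : ∀ᶠ y in 𝓝 (e x), e.symm y ∈ L.W x ∧ e.symm y ∈ W := by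
    have hc : Filter.Tendsto e.symm (𝓝 (e x)) (𝓝 x) := by
      have := e.continuousAt_symm h.mem_target
      rwa [ContinuousAt, h.left_inv] at this
    exact (hc.eventually (hL.isOpen.mem_nhds (L.mem x))).and
      (hc.eventually (hs.isOpen.mem_nhds hx))
  refine fsM_congr (hL.holo x (L.mem x) e h) (hs.holo x hx e h) ?_ ?_ ?_
  · show L.s x (e.symm (e x)) ≠ 0
    rw [h.left_inv]; exact hL.ne x (L.mem x)
  · show s (e.symm (e x)) ≠ 0
    rw [h.left_inv]; exact hs.ne x hx
  · filter_upwards [hev] with y hy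
    exact hL.prop hs hy.1 hy.2

/-- near `e x` the Fubini–Study form is given by one lift -/
lemma Lifts.fs_eventually {Φ : X → ℙ ℂ (Fin M → ℂ)} (L : Lifts n Φ) {W : Set X}
    {s : X → Fin M → ℂ} (hs : IsLift n Φ W s) {e : Chart n X} {x : X} (h : At e x)
    (hx : x ∈ W) : L.fs e =ᶠ[𝓝 (e x)] fsM (fun y => s (e.symm y)) := by
  have hc := e.continuousAt_symm h.mem_target
  have hev : ∀ᶠ y in 𝓝 (e x), e.symm y ∈ W := by
    refine hc.eventually ?_
    rw [h.left_inv]
    exact hs.isOpen.mem_nhds hx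
  filter_upwards [hev, h.nhds_target] with y hy hyt
  have := L.fs_eq hs (At.of_target h.1 hyt) hy
  rw [e.right_inv hyt] at this
  exact this

/-- the Fubini–Study form is a Kähler metric -/
theorem Lifts.isKahler {Φ : X → ℙ ℂ (Fin M → ℂ)} (L : Lifts n Φ) : IsKahler L.fs := by
  have hnz : ∀ {W : Set X} {s : X → Fin M → ℂ} (_ : IsLift n Φ W s) {e : Chart n X} {x : X}
      (_ : At e x) (_ : x ∈ W), (fun y => s (e.symm y)) (e x) ≠ 0 := by
    intro W s hs e x h hx
    show s (e.symm (e x)) ≠ 0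
    rw [h.left_inv]; exact hs.ne x hx
  refine { smooth := ?_, posDef := ?_, change := ?_, closed := ?_ }
  · intro e x h i j
    have hL := L.lift x
    have h1 := L.fs_eventually hL h (L.mem x)
    have h2 : (fun z => L.fs e z i j) =ᶠ[𝓝 (e x)]
        fun z => cHess (fun y => Real.log (nsq (L.s x (e.symm y)))) z i j := by
      filter_upwards [h1] with z hz
      rw [hz]; rfl
    exact (C2.contDiffAt_cHess (m := ∞) (smooth_log_nsq (hL.holo x (L.mem x) e h)
      (hnz hL h (L.mem x))) (le_of_eq rfl) i j).congr_of_eventuallyEq h2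
  · intro e x h
    have hL := L.lift x
    rw [L.fs_eq hL h (L.mem x)]
    refine fsM_posDef (hL.holo x (L.mem x) e h) (hnz hL h (L.mem x)) ?_
    intro v c hv
    refine hL.imm x (L.mem x) e h v c ?_
    rw [hv]
    simp only [h.left_inv]
  · intro e e' x h h'
    have hL := L.lift x
    rw [L.fs_eq hL h (L.mem x), L.fs_eq hL h' (L.mem x)]
    unfold fsM
    have h1 : (fun y => Real.log (nsq (L.s x (e.symm y)))) =ᶠ[𝓝 (e x)]
        fun y => (fun z => Real.log (nsq (L.s x (e'.symm z)))) (e' (e.symm y)) := by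
      filter_upwards [h.nhds_at h'] with z hz
      show _ = Real.log (nsq (L.s x (e'.symm (e' (e.symm z)))))
      rw [hz.2.2.left_inv]
    have h2 : e' (e.symm (e x)) = e' x := by rw [h.left_inv]
    rw [cHess_congr h1]
    have := cHess_comp (τ := fun z => e' (e.symm z))
      (f := fun z => Real.log (nsq (L.s x (e'.symm z)))) (z := e x)
      (by
        rw [h2]
        exact (smooth_log_nsq (hL.holo x (L.mem x) e' h') (hnz hL h' (L.mem x))).of_le
          (by exact WithTop.coe_le_coe.2 le_top)) (transition h h')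
    rw [h2] at this
    exact this
  · intro e x h i j k
    have hL := L.lift x
    have h1 := L.fs_eventually hL h (L.mem x)
    have h2 : ∀ a b, (fun z => L.fs e z a b) =ᶠ[𝓝 (e x)]
        fun z => cHess (fun y => Real.log (nsq (L.s x (e.symm y)))) z a b := by
      intro a b
      filter_upwards [h1] with z hz
      rw [hz]; rfl
    rw [dz_congr (h2 i j), dz_congr (h2 k j)]
    exact cHess_closed (smooth_log_nsq (hL.holo x (L.mem x) e h) (hnz hL h (L.mem x))) i j k

theorem exists_lifts {Φ : X → ℙ ℂ (Fin M → ℂ)} (hΦ : IsProjectiveImmersion (Cm n) Φ) :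
    Nonempty (Lifts n Φ) := by
  choose W s hm hl using exists_isLift hΦ
  exact ⟨⟨W, s, hm, hl⟩⟩

/-- a smooth projective manifold has a Kähler metric -/
theorem exists_isKahler (hX : IsSmoothProjective (Cm n) X) :
    ∃ w : Chart n X → Cm n → Matrix (Fin n) (Fin n) ℂ, IsKahler w := by
  obtain ⟨N, Φ, -, hΦ, -⟩ := hX
  obtain ⟨L⟩ := exists_lifts hΦ
  exact ⟨L.fs, L.isKahler⟩

end Vale.Agent.P299.H223
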