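import Vale.Agent.P299.H223.FS
import Vale.Agent.P299.H835.Yau
import Vale.Agent.P299.H723.D.Stmt

/-!
# P299 : the final theorem from `TensorStatement` (Part I) and `PartIIStatement` (Part II)
-/

open scoped Manifold ContDiff ComplexOrder Topology
open Vale.Agent.P272.K Vale.Agent.P300.Final Vale.Agent.P299.D Vale.Agent.P299.Final

noncomputable section

namespace Vale.Agent.P299.H223

/-- **Part II**: on a smooth projective `X` with a smooth semipositive metric on `-K_X`, if there
are, for one `k` and infinitely many `m`, nonzero holomorphic sections of `(Ω¹)^{⊗k} ⊗ (-mK_X)`,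
then some `-mK_X`, `m > 0`, has a nonzero holomorphic section. -/
def PartIIStatement : Prop :=
  ∀ (n : ℕ) (X : Type) [TopologicalSpace X] [T2Space X] [CompactSpace X] [ConnectedSpace X]
    [ChartedSpace (Cm n) X] [IsManifold 𝓘(ℂ, Cm n) ω X],
    IsSmoothProjective (Cm n) X →
    ∀ φ : Chart n X → Cm n → ℝ, IsCanonicalMetric φ →
    (∀ e x, At e x → (-cHess (φ e) (e x)).PosSemidef) →
    ∀ k : ℕ, (∀ m₀ : ℕ, ∃ m : ℕ, m₀ ≤ m ∧ ∃ s : Ten n k X, IsTen k m s ∧ TenNZ s) →
    ∃ m : ℕ, 0 < m ∧ ∃ s : Ten n 0 X, IsTen 0 m s ∧ TenNZ s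

section
variable {n : ℕ} {X : Type*} [TopologicalSpace X] [ChartedSpace (Cm n) X]
  [IsManifold 𝓘(ℂ, Cm n) ω X]

/-- weights of `-K_X` and of `K_X` -/
lemma isCanonicalMetric_neg {φ : Chart n X → Cm n → ℝ} (hφ : IsAnticanonicalMetric φ) :
    IsCanonicalMetric (fun e z => -φ e z) := by
  refine ⟨fun e x h => (hφ.smooth e x h).neg, fun e e' x h h' => ?_⟩
  have h1 := hφ.change e e' x h h'
  have hd : (0 : ℝ) < ‖(jacM e e' x).det‖ ^ 2 := by
    have := norm_pos_iff.2 (jacM_det_ne_zero h h')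
    positivity
  have h2 := congrArg Real.log h1
  rw [Real.log_exp, Real.log_mul hd.ne' (Real.exp_pos _).ne', Real.log_exp] at h2
  linarith

lemma neg_cHess_neg {f : Cm n → ℝ} {z : Cm n} (hf : ContDiffAt ℝ ∞ f z) :
    -cHess (fun y => -f y) z = cHess f z := by
  rw [C2.cHess_neg (hf.of_le (by exact WithTop.coe_le_coe.2 le_top)), neg_neg]

end

/-- **Q1 of P299 from Part I and Part II** -/
theorem nonvanishing_of (hI : TensorStatement) (hII : PartIIStatement) : Nonvanishing := by
  intro n X _ _ _ _ _ _ hX ⟨φ, hφ, hpos⟩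
  have hK := isCanonicalMetric_neg hφ
  have hpos' : ∀ e x, At e x → (-cHess (fun z => -φ e z) (e x)).PosSemidef := by
    intro e x h
    rw [neg_cHess_neg (hφ.smooth e x h)]
    exact hpos e x h
  obtain ⟨χ, hχ⟩ := exists_isKahler hX
  obtain ⟨u, c, -, hu, -, hric⟩ := H835.yauMetric hχ hK
  have hR : RicNonneg (addH χ u) := by
    intro e x h
    show (-cHess (fun y => Real.log (addH χ u e y).det.re) (e x)).PosSemidef
    rw [hric e x h]
    exact hpos' e x h
  obtain ⟨k, hk⟩ := hI n X (addH χ u) hu hR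
  obtain ⟨m, hm, s, hs, e, x, I, he, hne⟩ := hII n X hX (fun e z => -φ e z) hK hpos' k hk
  refine ⟨m, hm, fun e z => s e z I, ⟨fun e x h => hs.holo e x h I, fun e e' x h h' => ?_⟩,
    e, x, he, hne⟩
  have h1 := hs.change e e' x h h' I
  rw [mul_comm] at h1
  rw [h1]
  unfold tenPull
  rw [Fintype.sum_eq_single I (fun K hK => absurd (Subsingleton.elim K I) hK)]
  simp

end Vale.Agent.P299.H223
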