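import Vale.Agent.P299.H223.Top2
import Vale.Agent.P299.H760.Hom.Levi
import Vale.Agent.P299.H760.Hom.Ker

/-!
# P299, Part II : homogeneous representatives of families of elements of `K'`
-/

set_option linter.all false

open scoped Manifold ContDiff ComplexOrder Matrix Topology ENNReal
open Vale.Agent.P272.K MeasureTheory
open Vale.Agent.P300.L2 Vale.Agent.P299.D
open Vale.Agent.P299.H908 (ProjData)
open Vale.Agent.P299.H340 (Mod)
open Vale.Agent.P282.L2 (Pol Prim IsPartials)

noncomputable section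

namespace Vale.Agent.P299.H223

variable {n : ℕ} {X : Type} [TopologicalSpace X] [T2Space X] [CompactSpace X]
  [ConnectedSpace X] [ChartedSpace (Cm n) X] [IsManifold 𝓘(ℂ, Cm n) ω X]
  (D : ProjData n X) [Algebra (Pol n) D.K] [IsScalarTower ℂ (Pol n) D.K]
  [FaithfulSMul (Pol n) D.K] [Algebra (FractionRing (Pol n)) D.K]
  [IsScalarTower (Pol n) (FractionRing (Pol n)) D.K]
  [FiniteDimensional (FractionRing (Pol n)) D.K]

theorem homProp : HomProp D := by
  intro A B r h hkp hreg i₀ hi0 hi'
  obtain ⟨H, hg⟩ := H760.exists_homRep_reg B hreg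
  have hO : B.X0 ⊆ OmP D H.P := H.X0_subset_OmP hg hi0 (hreg i₀) hi'
  exact ⟨H.d, H.P, H.hP, fun w hw hR e x hx hxO hr v hv => H.ker hw hR hkp hx hxO hr v hv,
    hO, fun q hq β => H.levi hg hreg hO hq β⟩

end Vale.Agent.P299.H223
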