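import Vale.Agent.P299.H908.Bridge
import Vale.Agent.P299.H216.BrgT

/-!
# P299, Part II : the bridge after a localisation
-/

set_option linter.all false

open scoped Manifold ContDiff ComplexOrder Topology ENNReal
open Vale.Agent.P272.K MeasureTheory
open Vale.Agent.P300.L2 Vale.Agent.P299.D
open Vale.Agent.P299.H908 (ProjData)
open Vale.Agent.P299.H340 (Mod)
open Vale.Agent.P282.L2 (Pol IsPartials)

noncomputable section

namespace Vale.Agent.P299.H223

variable {n : ℕ} {X : Type} [TopologicalSpace X] [T2Space X] [CompactSpace X]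
  [ConnectedSpace X] [ChartedSpace (Cm n) X] [IsManifold 𝓘(ℂ, Cm n) ω X]
  {D : ProjData n X} [Algebra (Pol n) D.K] [IsScalarTower ℂ (Pol n) D.K]
  [FaithfulSMul (Pol n) D.K] [Algebra (FractionRing (Pol n)) D.K]
  [IsScalarTower (Pol n) (FractionRing (Pol n)) D.K]
  [FiniteDimensional (FractionRing (Pol n)) D.K]
  {A : Mod n D.K} {g : Pol n} {hg : g ≠ 0}

theorem j_loc (B : D.Den A.E) (B' : D.Den (A.loc g hg).E) {q : (Fin n → ℂ) × ℕ}
    (hq : q ∈ (A.loc g hg).S.M) : B'.brg.j q = B.brg.j q := by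
  have hq0 : q ∈ A.S.M := (Mod.mem_loc.1 hq).1
  have h1 := B'.brg.j_mem hq
  have h2 := B.brg.j_mem hq0
  have h3 := B'.brg.θ_j hq
  have h4 := B.brg.θ_j hq0
  simp only [ProjData.Den.brg_Xo, ProjData.Den.brg_θ] at h1 h2 h3 h4
  set x' := B'.brg.j q
  set x := B.brg.j q
  have h5 : ∀ i, D.xi i x' = D.xi i x := by
    intro i
    have e1 := (B'.reg_th h1 (B'.regxi i)).2
    have e2 := (B.reg_th h2 (B.regxi i)).2
    rw [h3] at e1
    rw [h4] at e2
    rw [Mod.val_loc (B.regxi i) hq, ← e2] at e1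
    unfold ProjData.xiK at e1
    rw [ProjData.val_algebraMap _ h1.1, ProjData.val_algebraMap _ h2.1, D.ext_xiR i h1.1,
      D.ext_xiR i h2.1] at e1
    exact e1
  apply D.inj
  have h6 : D.Z x' D.j0 ≠ 0 := h1.1
  have h7 : D.Z x D.j0 ≠ 0 := h2.1
  refine ⟨D.Z x' D.j0 / D.Z x D.j0, funext fun i => ?_⟩
  have h8 := h5 i
  unfold ProjData.xi at h8
  rw [div_eq_div_iff h6 h7] at h8
  simp only [Pi.smul_apply, smul_eq_mul]
  field_simp
  linear_combination h8

theorem ce_loc (B : D.Den A.E) (B' : D.Den (A.loc g hg).E) {q : (Fin n → ℂ) × ℕ}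
    (hq : q ∈ (A.loc g hg).S.M) : B'.brg.ce q = B.brg.ce q := by
  unfold H216.Brg.ce
  rw [j_loc B B' hq]

theorem J_loc (B : D.Den A.E) (B' : D.Den (A.loc g hg).E) (e : Chart n X) (x : X) :
    B'.brg.J e x = B.brg.J e x := rfl

theorem wt_loc (B : D.Den A.E) (B' : D.Den (A.loc g hg).E) (φ : Chart n X → Cm n → ℝ)
    {q : (Fin n → ℂ) × ℕ} (hq : q ∈ (A.loc g hg).S.M) : B'.brg.wt φ q = B.brg.wt φ q := by
  unfold H216.Brg.wt
  rw [ce_loc B B' hq, j_loc B B' hq, J_loc B B']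

theorem comp_loc (B : D.Den A.E) (B' : D.Den (A.loc g hg).E) {p m : ℕ} (u : Ten n p X)
    (I : Fin p → Fin n) {q : (Fin n → ℂ) × ℕ} (hq : q ∈ (A.loc g hg).S.M) :
    B'.brg.comp m u I q = B.brg.comp m u I q := by
  unfold H216.Brg.comp
  rw [ce_loc B B' hq, j_loc B B' hq, J_loc B B']

end Vale.Agent.P299.H223
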