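import Vale.Agent.P299.H223.FS
import Vale.Agent.P299.H908.Proj

/-!
# P299 : the projective data of a smooth projective manifold
-/

open scoped Manifold ContDiff ComplexOrder Topology LinearAlgebra.Projectivization
open Vale.Agent.P272.K Vale.Agent.P300.Final

noncomputable section

namespace Vale.Agent.P299.H223

variable {n : ℕ} {X : Type} [TopologicalSpace X] [ChartedSpace (Cm n) X]
  [IsManifold 𝓘(ℂ, Cm n) ω X]

/-- the projective data of an injective projective immersion -/
theorem projData_of [Nonempty X] {N : ℕ} {Φ : X → ℙ ℂ (Fin (N + 1) → ℂ)}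
    (hinj : Function.Injective Φ) (hΦ : IsProjectiveImmersion (Cm n) Φ) :
    Nonempty (H908.ProjData n X) := by
  have hrep : ∀ x, (Φ x).rep ≠ 0 := fun x => (Φ x).rep_nonzero
  -- a lift is proportional to `rep`
  have hprop : ∀ {W : Set X} {s : X → Fin (N + 1) → ℂ} (_ : IsLift n Φ W s) {y : X} (_ : y ∈ W),
      ∃ c : ℂ, c ≠ 0 ∧ s y = c • (Φ y).rep := by
    intro W s hs y hy
    have h1 := hs.eq y hy
    rw [← Projectivization.mk_rep (Φ y), Projectivization.mk_eq_mk_iff] at h1
    obtain ⟨a, ha⟩ := h1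
    refine ⟨(a : ℂ)⁻¹, inv_ne_zero a.ne_zero, ?_⟩
    rw [← ha, Units.smul_def, smul_smul, inv_mul_cancel₀ a.ne_zero, one_smul]
  obtain ⟨x0⟩ := ‹Nonempty X›
  obtain ⟨j0, hj0⟩ : ∃ j, (Φ x0).rep j ≠ 0 := by
    by_contra hcon
    push Not at hcon
    exact hrep x0 (funext hcon)
  refine ⟨{ N := N, Z := fun x => (Φ x).rep, ne := hrep, loc := ?_, inj := ?_, imm := ?_,
            j0 := j0, hj0 := ⟨x0, hj0⟩ }⟩
  · intro x
    obtain ⟨W, s, hx, hs⟩ := exists_isLift hΦ x
    refine ⟨W, s, hs.isOpen.mem_nhds hx, fun y hy i e he => ?_, fun y hy => hprop hs hy⟩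
    exact (comp_cd (hs.holo y hy e he) i).analyticAt
  · rintro x y ⟨c, hc⟩
    apply hinj
    have hc0 : c ≠ 0 := by
      rintro rfl
      rw [zero_smul] at hc
      exact hrep x hc
    rw [← Projectivization.mk_rep (Φ x), ← Projectivization.mk_rep (Φ y),
      Projectivization.mk_eq_mk_iff]
    exact ⟨Units.mk0 c hc0, hc.symm⟩
  · intro e x he j hj v hv
    obtain ⟨W, s, hx, hs⟩ := exists_isLift hΦ x
    set F : Cm n → Fin (N + 1) → ℂ := fun z => s (e.symm z) with hF
    have hFx : F (e x) = s x := by rw [hF]; simp only [he.left_inv]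
    have hFh : ContDiffAt ℂ ω F (e x) := hs.holo x hx e he
    have hd : ∀ i, DifferentiableAt ℂ (fun z => F z i) (e x) := fun i =>
      (comp_cd hFh i).differentiableAt (by simp)
    have hj' : F (e x) j ≠ 0 := by
      rw [hFx]
      obtain ⟨c, hc, hcs⟩ := hprop hs hx
      rw [hcs]
      exact mul_ne_zero hc hj
    -- `Z_i / Z_j = F_i / F_j` near `e x`
    have hc : Filter.Tendsto e.symm (𝓝 (e x)) (𝓝 x) := by
      have := e.continuousAt_symm he.mem_target
      rwa [ContinuousAt, he.left_inv] at this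
    have hev : ∀ i, (fun z => (Φ (e.symm z)).rep i / (Φ (e.symm z)).rep j) =ᶠ[𝓝 (e x)]
        fun z => F z i / F z j := by
      intro i
      filter_upwards [hc.eventually (hs.isOpen.mem_nhds hx)] with z hz
      obtain ⟨c, hc, hcs⟩ := hprop hs hz
      rw [hF]
      simp only []
      rw [hcs]
      simp only [Pi.smul_apply, smul_eq_mul]
      rw [mul_div_mul_left _ _ hc]
    refine hs.imm x hx e he v (fderiv ℂ (fun z => F z j) (e x) v / F (e x) j) ?_
    funext i
    have h1 := hv i
    rw [(hev i).fderiv_eq] at h1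
    have hq : DifferentiableAt ℂ (fun z => F z i / F z j) (e x) := by
      simp only [div_eq_mul_inv]
      exact (hd i).fun_mul ((hd j).fun_inv hj')
    have h2 : (fun z => F z i) =ᶠ[𝓝 (e x)] fun z => F z i / F z j * F z j := by
      filter_upwards [(comp_cd hFh j).continuousAt.eventually_ne hj'] with z hz
      rw [div_mul_cancel₀ _ hz]
    have h3 : fderiv ℂ F (e x) v i = fderiv ℂ (fun z => F z i) (e x) v := by
      rw [fderiv_apply (hFh.differentiableAt (by simp)) i]
      rfl
    show fderiv ℂ F (e x) v i = (fderiv ℂ (fun z => F z j) (e x) v / F (e x) j) • s x i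
    rw [h3, h2.fderiv_eq, fderiv_fun_mul hq (hd j)]
    simp only [add_apply, smul_apply, smul_eq_mul]
    rw [h1, ← hFx]
    ring

theorem nonempty_projData [Nonempty X] (hX : IsSmoothProjective (Cm n) X) :
    Nonempty (H908.ProjData n X) := by
  obtain ⟨N, Φ, hinj, hΦ, -⟩ := hX
  exact projData_of hinj hΦ

end Vale.Agent.P299.H223
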