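import Vale.Agent.P299.H223.Top1
import Vale.Agent.P299.H216.GSeqL
import Vale.Agent.P299.H167.Out
import Vale.Agent.P299.H738.Prod
import Vale.Agent.P299.H835.Yau

/-!
# P299, Part II : the weight of (5.3)
-/

set_option linter.all false

open scoped Manifold ContDiff ComplexOrder Matrix Topology ENNReal
open Vale.Agent.P272.K MeasureTheory Set Filter Matrix
open Vale.Agent.P300.L2 Vale.Agent.P300.L2.Sheets Vale.Agent.P299.D
open Vale.Agent.P299.Pencil (Pt PB HP)
open Vale.Agent.P299.H908 (ProjData)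
open Vale.Agent.P299.H340 (Mod)
open Vale.Agent.P282.L2 (Pol IsPartials)

noncomputable section

namespace Vale.Agent.P299.H223

section X

variable {n : ℕ} {X : Type} [TopologicalSpace X] [ChartedSpace (Cm n) X]
  [IsManifold 𝓘(ℂ, Cm n) ω X] (D : ProjData n X) {r d : ℕ}
  (P : Fin r → MvPolynomial (Fin (D.N + 1)) ℂ)

/-- `beP` is a form on `OmP` -/
theorem beP_change (hP : ∀ i, (P i).IsHomogeneous d) {e e' : Chart n X} {x : X} (h : At e x)
    (h' : At e' x) (hx : x ∈ OmP D P) : beP D P e (e x) =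
      (jacM e e' x).transpose * beP D P e' (e' x) * (jacM e e' x).map (starRingEnd ℂ) := by
  have hj := jj_ne D x
  rw [beP_eq D P hP hx hj h, beP_eq D P hP hx hj h']
  unfold fsM
  have h1 : (fun y => Real.log (nsq (evP D P (dh D (jj D x) (e.symm y))))) =ᶠ[𝓝 (e x)]
      fun y => (fun z => Real.log (nsq (evP D P (dh D (jj D x) (e'.symm z))))) (e' (e.symm y)) := by
    filter_upwards [h.nhds_at h'] with z hz
    show _ = Real.log (nsq (evP D P (dh D (jj D x) (e'.symm (e' (e.symm z))))))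
    rw [hz.2.2.left_inv]
  have h2 : e' (e.symm (e x)) = e' x := by rw [h.left_inv]
  rw [cHess_congr h1]
  have h3 : (fun z => evP D P (dh D (jj D x) (e'.symm z))) (e' x) ≠ 0 := by
    show evP D P (dh D (jj D x) (e'.symm (e' x))) ≠ 0
    rw [h'.left_inv]
    exact (evP_dh_ne D P hP hj).2 hx
  have := cHess_comp (τ := fun z => e' (e.symm z))
    (f := fun z => Real.log (nsq (evP D P (dh D (jj D x) (e'.symm z))))) (z := e x)
    (by
      rw [h2]
      exact (smooth_log_nsq (evP_holo D P (dh_holo D hj h')) h3).of_le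
        (by exact WithTop.coe_le_coe.2 le_top)) (transition h h')
  rw [h2] at this
  exact this

variable [T2Space X] [CompactSpace X] [ConnectedSpace X]

/-- **the weight on `X`** -/
theorem exists_xweight {φ : Chart n X → Cm n → ℝ} (hφ : IsCanonicalMetric φ)
    (hneg : ∀ e x, At e x → (-cHess (φ e) (e x)).PosSemidef)
    (hP : ∀ i, (P i).IsHomogeneous d)
    (hker : ∀ w, IsKahler w → RicNonneg w → ∀ e x, At e x → x ∈ OmP D P →
      (∀ e' y, At e' y → (ric w e' (e' y)).rank ≤ (ric w e (e x)).rank) →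
      ∀ v, ric w e (e x) *ᵥ v = 0 → beP D P e (e x) *ᵥ v = 0) :
    ∃ (V : X → ℝ) (ε d' : ℝ), 0 < ε ∧ 0 < d' ∧ d' < 1 ∧
      H216.XWeight (fun e z => -cHess (φ e) z) (beP D P) (OmP D P) V ε d' := by
  obtain ⟨u, c₀, -, hu, -, hric⟩ := H835.yauMetric (isKahler_fsD D) hφ
  set w := addH (fsD D) u with hw
  have hR : RicNonneg w := by
    intro e x h
    show (-cHess (fun y => Real.log (addH (fsD D) u e y).det.re) (e x)).PosSemidef
    rw [hric e x h]
    exact hneg e x h
  obtain ⟨c, C, Λ, ν, hc, hD⟩ := H738.exists_data D P hu hR hP (hker w hu hR)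
  obtain ⟨ε, hε, d₀, hd₀, V, -, hm, hV, hint, hexp, htest⟩ := hD.psef
  refine ⟨V, ε, min d₀ (1 / 2), hε, lt_min hd₀ (by norm_num),
    lt_of_le_of_lt (min_le_right _ _) (by norm_num), ?_⟩
  have hchart : ∀ x : X, At (chartAt (Cm n) x : Chart n X) x := fun x =>
    ⟨chart_mem_atlas _ _, mem_chart_source _ _⟩
  refine ⟨hm, fun e he => Eventually.of_forall fun w => hV _, fun x => ?_, fun x => ?_,
    fun e he H h1 h2 h3 h4 => ?_⟩
  · obtain ⟨O, hO, h⟩ := hint _ x (hchart x)
    exact ⟨_, hchart x, O, hO, h⟩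
  · obtain ⟨O, hO, h⟩ := hexp _ x (hchart x)
    refine ⟨_, hchart x, O, hO, lt_of_le_of_lt (lintegral_mono fun z => ?_) h⟩
    refine ENNReal.ofReal_le_ofReal (Real.exp_le_exp.2 ?_)
    have h5 := hV ((chartAt (Cm n) x : Chart n X).symm z)
    have h6 : min d₀ (1 / 2) ≤ d₀ := min_le_left _ _
    nlinarith
  · have hEq : {x | 0 < H738.EP D P c d x} = OmP D P := by
      ext x; exact H738.EP_pos_iff D P hc x
    have h5 := htest e he H h1 h2 (by rw [hEq]; exact h3) h4
    have hH : ∀ z l k, z ∉ e.target ∩ e.symm ⁻¹' OmP D P → H z l k = 0 := by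
      intro z l k hz
      by_contra hne
      exact hz (h3 l k (subset_tsupport _ hne))
    have e1 : ∀ z, (∑ l, ∑ k, H z l k * H167.bet (H738.etaP D d) (H738.EP D P c d) e z k l).re =
        (∑ l, ∑ k, H z l k * beP D P e z k l).re := by
      intro z
      by_cases hz : z ∈ e.target ∩ e.symm ⁻¹' OmP D P
      · have hx : At e (e.symm z) := At.of_target he hz.1
        have := H738.bet_EP D P hP hc hx hz.2
        rw [e.right_inv hz.1] at this
        rw [this]
      · simp only [hH z _ _ hz, zero_mul]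
    have e2 : ∀ z, (∑ l, ∑ k, H z l k * ric w e z k l).re =
        (∑ l, ∑ k, H z l k * (-cHess (φ e) z) k l).re := by
      intro z
      by_cases hz : z ∈ e.target ∩ e.symm ⁻¹' OmP D P
      · have hx : At e (e.symm z) := At.of_target he hz.1
        have := hric e _ hx
        rw [e.right_inv hz.1] at this
        have h6 : ric w e z = -cHess (φ e) z := by
          show -cHess (fun y => Real.log (addH (fsD D) u e y).det.re) z = _
          rw [this]
        rw [h6]
      · simp only [hH z _ _ hz, zero_mul]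
    simp only [e1, e2] at h5
    exact h5

end X

variable {n k : ℕ} {X : Type} [TopologicalSpace X] [T2Space X] [CompactSpace X]
  [ConnectedSpace X] [ChartedSpace (Cm n) X] [IsManifold 𝓘(ℂ, Cm n) ω X]
  {D : ProjData n X} [Algebra (Pol n) D.K] [IsScalarTower ℂ (Pol n) D.K]
  [FaithfulSMul (Pol n) D.K] [Algebra (FractionRing (Pol n)) D.K]
  [IsScalarTower (Pol n) (FractionRing (Pol n)) D.K]
  [FiniteDimensional (FractionRing (Pol n)) D.K] {A : Mod n D.K}

/-- the family of products -/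
def prf {K : Type} [Field K] {ru rv : ℕ} (u : Fin (ru + 1) → K) (v : Fin (rv + 1) → K) :
    Fin ((ru + 1) * (rv + 1)) → K :=
  fun l => u (finProdFinEquiv.symm l).1 * v (finProdFinEquiv.symm l).2

theorem prf_zero {K : Type} [Field K] {ru rv : ℕ} (u : Fin (ru + 1) → K)
    (v : Fin (rv + 1) → K) : prf u v (finProdFinEquiv (0, 0)) = u 0 * v 0 := by
  simp [prf]

theorem sum_prf {K : Type} [Field K] {ru rv : ℕ} (u : Fin (ru + 1) → K)
    (v : Fin (rv + 1) → K) (f : K → ℝ) :
    ∑ l, f (prf u v l) = ∑ i, ∑ j, f (u i * v j) := by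
  rw [← Finset.sum_product', Finset.univ_product_univ]
  exact Fintype.sum_equiv finProdFinEquiv.symm _ _ fun l => rfl

/-- **the weight of (5.3) on the model** -/
theorem gOut_of (B : D.Den A.E) {φ : Chart n X → Cm n → ℝ} (hφ : IsCanonicalMetric φ)
    (hneg : ∀ e x, At e x → (-cHess (φ e) (e x)).PosSemidef)
    {ru rv : ℕ} {u : Fin (ru + 1) → D.K} {v : Fin (rv + 1) → D.K}
    (hu : ∀ i, A.IsReg (u i)) (hv : ∀ i, A.IsReg (v i)) (hu0 : u 0 ≠ 0) (hv0 : v 0 ≠ 0)
    (hui : A.IsReg (u 0)⁻¹) (hvi : A.IsReg (v 0)⁻¹)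
    {d : ℕ} {P : Fin ((ru + 1) * (rv + 1)) → MvPolynomial (Fin (D.N + 1)) ℂ}
    (hP : ∀ i, (P i).IsHomogeneous d)
    (hker : ∀ w, IsKahler w → RicNonneg w → ∀ e x, At e x → x ∈ OmP D P →
      (∀ e' y, At e' y → (ric w e' (e' y)).rank ≤ (ric w e (e x)).rank) →
      ∀ v, ric w e (e x) *ᵥ v = 0 → beP D P e (e x) *ᵥ v = 0)
    (hOm : B.brg.Xo ⊆ OmP D P)
    (hlev : ∀ q ∈ A.S.M, ∀ β : Fin n → ℂ,
      A.S.levi (fun q => Real.log (∑ l, ‖A.val (prf u v l) q‖ ^ 2)) β q =
        B.brg.frm (beP D P) β q) :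
    GOut A.S A.p (fun q => -B.brg.wt φ q) (fun i => A.val (u i)) (fun i => A.val (v i)) := by
  obtain ⟨V, ε, d', hε, hd', hd1, hV⟩ := exists_xweight D P hφ hneg hP hker
  obtain ⟨C, k0, hp⟩ := A.exh
  have hsum : ∀ q ∈ A.S.M, ∑ l, ‖A.val (prf u v l) q‖ ^ 2 =
      H590.A.sq (fun i => A.val (u i)) q * H590.A.sq (fun i => A.val (v i)) q := by
    intro q hq
    rw [sum_prf u v fun a => ‖A.val a q‖ ^ 2]
    unfold H590.A.sq
    rw [Finset.sum_mul_sum]
    refine Finset.sum_congr rfl fun i _ => Finset.sum_congr rfl fun j _ => ?_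
    rw [Mod.val_mul hq (hu i) (hv j), norm_mul, mul_pow]
  obtain ⟨G, h1, h2, h3, h4, h5, h6⟩ := H216.exists_G_of_xweight B.brg hp hφ
    (Mb := beP D P) (fun e e' x h h' hx => beP_change D P hP h h' (hOm hx))
    (u := fun i => A.val (u i)) (v := fun i => A.val (v i))
    (fun i => Mod.holo_val (hu i)) (fun q hq => Mod.val_ne_zero_of_inv hq hu0 (hu 0) hui)
    (fun i => Mod.holo_val (hv i)) (fun q hq => Mod.val_ne_zero_of_inv hq hv0 (hv 0) hvi)
    (fun q hq β => by
      rw [← hlev q hq β]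
      obtain ⟨s, W, hs, z, hz, rfl⟩ := Sheets.exists_section' hq
      rw [H91.levi_section hs hz, H91.levi_section hs hz]
      refine (H91.lev_congr ?_ β).symm
      filter_upwards [hs.isOpen.mem_nhds hz] with z' hz'
      rw [hsum _ (hs.mem_M hz')]) hd' hOm hV
  exact ⟨d', ε, G, hd', hd1, hε, h1, h2, h3, h4, h5, h6⟩

end Vale.Agent.P299.H223
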