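import Vale.Agent.P299.H223.Top1
import Vale.Agent.P299.H212.CompE
import Vale.Agent.P299.H531.Glue
import Vale.Agent.P299.H570.Base.Ex

/-!
# P299, Part II : the weight `Ψ` on the final model
-/

set_option linter.all false

open scoped Manifold ContDiff ComplexOrder Topology ENNReal
open Vale.Agent.P272.K MeasureTheory
open Vale.Agent.P300.L2 Vale.Agent.P300.L2.Sheets Vale.Agent.P299.D
open Vale.Agent.P299.Pencil (Pt PB HP)
open Vale.Agent.P299.H908 (ProjData)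
open Vale.Agent.P299.H340 (Mod)
open Vale.Agent.P282.L2 (Pol IsPartials)

noncomputable section

namespace Vale.Agent.P299.H223

variable {n k : ℕ} {X : Type} [TopologicalSpace X] [T2Space X] [CompactSpace X]
  [ConnectedSpace X] [ChartedSpace (Cm n) X] [IsManifold 𝓘(ℂ, Cm n) ω X]
  {D : ProjData n X} [Algebra (Pol n) D.K] [IsScalarTower ℂ (Pol n) D.K]
  [FaithfulSMul (Pol n) D.K] [Algebra (FractionRing (Pol n)) D.K]
  [IsScalarTower (Pol n) (FractionRing (Pol n)) D.K]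
  [FiniteDimensional (FractionRing (Pol n)) D.K]
  {K₀ : Type} [Field K₀] [Algebra ℂ K₀] [Algebra (Pol k) K₀]
  [IsScalarTower ℂ (Pol k) K₀] [FaithfulSMul (Pol k) K₀] [Algebra K₀ D.K]
  [IsScalarTower ℂ K₀ D.K]
  {ι : Fin k ↪ Fin n} {A : Mod n D.K} {Bm : Mod k K₀}

/-- **the weight `Ψ`** -/
theorem psiOut (hk : 0 < k) (B : D.Den A.E) (P : H570.Base.Comp ι A Bm)
    (hgood : H570.Base.Good ι A Bm) (hK : ∀ f : D.K, f ∈ H212.kp D.K D.fm ↔
      ∃ a : K₀, algebraMap K₀ D.K a = f)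
    {φ : Chart n X → Cm n → ℝ} (hφ : IsCanonicalMetric φ)
    (hneg : ∀ e x, At e x → (-cHess (φ e) (e x)).PosSemidef)
    (hup : ∃ (c : ℝ) (r : ℕ), ∀ q ∈ A.S.M, Real.exp (-(-B.brg.wt φ q)) ≤ c * (1 + A.p q.1) ^ r)
    (hex : ∃ (A : Mod n D.K) (B : H216.Brg A.S X), H212.Cmp A B)
    {s : D.K} (hs0 : s ≠ 0) (hs : A.IsReg s) (hsi : A.IsReg s⁻¹) {b₁ e : ℕ} (hb : 0 < b₁)
    (hgen : ∀ (b : ℤ) (f : D.K), f ≠ 0 → (H212.compData hex).Lb b f →
      ∃ (j : ℤ) (g : D.K), b = j * b₁ ∧ (H212.compData hex).Lb 0 g ∧ g ≠ 0 ∧ f = s ^ j * g)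
    {ru rv : ℕ} {u : Fin (ru + 1) → K₀} {v : Fin (rv + 1) → K₀}
    (hu : ∀ i, Bm.IsReg (u i)) (hv : ∀ i, Bm.IsReg (v i)) (hu0 : u 0 ≠ 0) (hv0 : v 0 ≠ 0)
    (hui : Bm.IsReg (u 0)⁻¹) (hvi : Bm.IsReg (v 0)⁻¹)
    (hcmp : Cmp A.S Bm.S (H570.Base.phi ι A Bm) (fun q => -B.brg.wt φ q) (A.val s) b₁ e
      (fun y => ∑ i, ‖Bm.val (u i) y‖ ^ 2) (fun y => ∑ i, ‖Bm.val (v i) y‖ ^ 2)) :
    PsiOut A.S A.p (fun i => A.val (algebraMap K₀ D.K (u i)))
      (fun i => A.val (algebraMap K₀ D.K (v i))) := by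
  classical
  have hN : H212.Thin (n := n) B.brg.Xoᶜ := by
    rw [B.brg_Xo]; exact B.thin_compl
  obtain ⟨C, k0, hp⟩ := A.exh
  obtain ⟨CT, kT, hpT⟩ := Bm.exh
  have hF := P.fibration hgood
  have hCD : A.S.CD 2 (fun q => ((-B.brg.wt φ q : ℝ) : ℂ)) := by
    have := (Sheets.CD.const (S := A.S) (m := 2) (-1)).mul (B.brg.wt_CD hφ 2)
    refine this.congr fun q _ => ?_
    push_cast
    ring
  have hDat : H531.Data A.S Bm.S ι (H570.Base.phi ι A Bm) A.p (fun q => -B.brg.wt φ q)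
      (A.val s) :=
    { fib := hF
      p_nonneg := fun z _ => A.p_nonneg z
      φ_CD := hCD
      φ_levi := fun q hq β => B.brg.neg_wt_levi_nonneg hφ hneg β hq
      φ_growth := hup
      s_holo := Mod.holo_val hs
      s_growth := by
        obtain ⟨c, r, -, h⟩ := Mod.growth (A := A) hs
        exact ⟨c, r, h⟩ }
  have hBP : H531.BaseProp A.S Bm.S ι (H570.Base.phi ι A Bm) (fun q => -B.brg.wt φ q)
      (A.val s) b₁ := by
    refine H126.baseProp (C := H212.compData hex) (i := algebraMap K₀ D.K) hN hφ ?_ ?_ hb hs0 hs hsi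
      hgen ?_ ?_ hF
    · intro k m u hu I
      obtain ⟨-, h1, h2⟩ := H212.compK_spec (H212.cmp_brg B) hu I
      exact ⟨h1, fun q hq => (h2 q hq).symm⟩
    · intro l
      rw [H212.Lb_zero_iff hex, hK]
      refine ⟨algebraMap (Pol k) K₀ (MvPolynomial.X l), ?_⟩
      rw [P.comp, MvPolynomial.rename_X]
    · intro g hg
      exact (hK g).1 ((H212.Lb_zero_iff hex).1 hg)
    · intro a ha
      exact ⟨P.reg ha, fun q hq => P.val hq ha⟩
  have hI : ∫⁻ q, ENNReal.ofReal (Real.exp (-(-B.brg.wt φ q))) ∂A.S.μ < ⊤ := by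
    have := B.brg.mass_lt_top hφ
    simpa only [neg_neg] using this
  obtain ⟨ρ, C₁, hρ, hρC⟩ := hcmp.exists_fibSup (P.surj hgood)
  have hne : ∀ {a : K₀}, a ≠ 0 → Bm.IsReg a → Bm.IsReg a⁻¹ → ∀ y ∈ Bm.S.M, Bm.val a y ≠ 0 :=
    fun ha h1 h2 y hy => Mod.val_ne_zero_of_inv hy ha h1 h2
  have he : (0 : ℝ) < e := by exact_mod_cast hcmp.e_pos
  obtain ⟨Ψ, h1, h2, h3, h4, h5⟩ := H531.psi hp hpT hDat hk
    (fun q hq => Mod.val_ne_zero_of_inv hq hs0 hs hsi) hI hBP hρ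
    (u' := fun i => Bm.val (u i)) (v' := fun i => Bm.val (v i))
    (fun i => (Mod.holo_val (hu i)).CD 0) (fun i => (Mod.holo_val (hv i)).CD 0)
    (fun y hy => ⟨0, hne hu0 (hu 0) hui y hy⟩) (fun y hy => ⟨0, hne hv0 (hv 0) hvi y hy⟩) he
    (C₁ := C₁) (fun y hy => by
      rw [Real.log_div (hcmp.hb y hy).ne' (hcmp.ha y hy).ne']
      exact hρC y hy)
    (u := fun i => A.val (algebraMap K₀ D.K (u i))) (v := fun i => A.val (algebraMap K₀ D.K (v i)))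
    (fun i q hq => P.val hq (hu i)) (fun i q hq => P.val hq (hv i))
  exact ⟨Ψ, h1, h2, h3, h4, h5⟩

end Vale.Agent.P299.H223
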