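import Vale.Agent.P299.H223.Top3
import Vale.Agent.P299.H212.Pts

/-!
# P299, Part II : the algebraic comparison on compatible models
-/

set_option linter.all false

open scoped Manifold ContDiff ComplexOrder Matrix Topology ENNReal
open Vale.Agent.P272.K MeasureTheory
open Vale.Agent.P300.L2 Vale.Agent.P299.D
open Vale.Agent.P299.H908 (ProjData)
open Vale.Agent.P299.H340 (Mod)
open Vale.Agent.P282.L2 (Pol Prim IsPartials)

noncomputable section

namespace Vale.Agent.P299.H223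

variable {n : ℕ} {X : Type} [TopologicalSpace X] [T2Space X] [CompactSpace X]
  [ConnectedSpace X] [ChartedSpace (Cm n) X] [IsManifold 𝓘(ℂ, Cm n) ω X]
  (D : ProjData n X)

theorem ptsProp [Algebra (Pol n) D.K] [IsScalarTower ℂ (Pol n) D.K]
    [FaithfulSMul (Pol n) D.K] [Algebra (FractionRing (Pol n)) D.K]
    [IsScalarTower (Pol n) (FractionRing (Pol n)) D.K]
    [FiniteDimensional (FractionRing (Pol n)) D.K] {k : ℕ} (K₀ : Type) [Field K₀] [Algebra ℂ K₀]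
    [Algebra (Pol k) K₀] [IsScalarTower ℂ (Pol k) K₀] [FaithfulSMul (Pol k) K₀] [Algebra K₀ D.K]
    [IsScalarTower ℂ K₀ D.K] (hkp : ∀ f ∈ H212.kp D.K D.fm, ∃ a : K₀, algebraMap K₀ D.K a = f)
    (ι : Fin k ↪ Fin n) {φ : Chart n X → Cm n → ℝ} (hφ : IsCanonicalMetric φ) :
    PtsProp D K₀ ι φ := by
  rintro A Bm B P hgood s b₁ hs0 hs hsi hb ⟨p, N₀, σ₀, h1, h2, h3⟩
  obtain ⟨g, e, n₁, n₂, h₁, h₂, r, C, hg, he, hC, hr₁, hr₂, h5, h6, h7⟩ :=
    H212.pts (H212.cmp_brg B) (fun e x h => (hφ.smooth e x h).continuousAt) hφ.change hb hs0 hs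
      hsi h1 h2 h3 P hkp
  refine ⟨e, n₁, n₂, g, h₁, h₂, hg, he, hr₁, hr₂, fun y hy hy' => (h7 y hy hy').1,
    fun y hy hy' => (h7 y hy hy').2.1, r, C, C, hC, hC, fun q hq => ?_, fun q hq => ?_,
    fun y hy hy' => ?_⟩
  · rw [neg_neg]; exact h5 q hq
  · rw [neg_neg]; exact h6 q hq
  · obtain ⟨-, -, ρ, hρ, h8, h9, h10⟩ := h7 y hy hy'
    exact ⟨ρ, hρ, h8, h9, h10⟩

end Vale.Agent.P299.H223
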