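import Vale.Agent.P299.H223.Rho
import Vale.Agent.P299.H223.Loc
import Vale.Agent.P299.H570.Base.Ex

/-!
# P299, Part II : shrinking the compatible models
-/

set_option linter.all false

open scoped Manifold ContDiff ComplexOrder Topology ENNReal
open Vale.Agent.P272.K MeasureTheory
open Vale.Agent.P300.L2 Vale.Agent.P299.D
open Vale.Agent.P299.H908 (ProjData)
open Vale.Agent.P299.H340 (Mod)
open Vale.Agent.P299.H570.Base (rename_ne_zero isReg_mul_of_dvd)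
open Vale.Agent.P282.L2 (Pol Prim IsPartials)

noncomputable section

namespace Vale.Agent.P299.H223

theorem mod_nonempty {n : ℕ} {K : Type} [Field K] [Algebra ℂ K] [Algebra (Pol n) K]
    [IsScalarTower ℂ (Pol n) K] [FaithfulSMul (Pol n) K] (A : Mod n K) : A.S.M.Nonempty := by
  by_contra hcon
  rw [Set.not_nonempty_iff_eq_empty] at hcon
  have h1 : (1 : K) = 0 := Mod.eq_zero_of_val (A := A) Mod.isReg_one isOpen_univ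
    (by rw [Set.univ_inter]; exact A.nonempty_V) (fun q hq _ => by
      rw [hcon] at hq; exact absurd hq (Set.notMem_empty q))
  exact one_ne_zero h1

section out

variable {n k : ℕ} {K : Type} [Field K] [Algebra ℂ K] [Algebra (Pol n) K]
  [IsScalarTower ℂ (Pol n) K] [FaithfulSMul (Pol n) K]
  {K₀ : Type} [Field K₀] [Algebra ℂ K₀] [Algebra (Pol k) K₀]
  [IsScalarTower ℂ (Pol k) K₀] [FaithfulSMul (Pol k) K₀] [Algebra K₀ K]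

/-- the output of the algebraic comparison (5.1), on compatible models -/
structure Out51 (ι : Fin k ↪ Fin n) (A : Mod n K) (Bm : Mod k K₀)
    (w : (Fin n → ℂ) × ℕ → ℝ) (s : K) (b e : ℕ) {n₁ n₂ : ℕ} (g : Pol k) (h₁ : Fin n₁ → K₀)
    (h₂ : Fin n₂ → K₀) : Prop where
  g0 : g ≠ 0
  e_pos : 1 ≤ e
  reg₁ : ∀ i, Bm.IsReg (h₁ i)
  reg₂ : ∀ i, Bm.IsReg (h₂ i)
  pos₁ : ∀ y ∈ Bm.S.M, MvPolynomial.eval y.1 g ≠ 0 → 0 < ∑ i, ‖Bm.val (h₁ i) y‖ ^ 2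
  pos₂ : ∀ y ∈ Bm.S.M, MvPolynomial.eval y.1 g ≠ 0 → 0 < ∑ i, ‖Bm.val (h₂ i) y‖ ^ 2
  ex : ∃ (r : (Fin n → ℂ) × ℕ → ℝ) (C C' : ℝ), 0 < C ∧ 0 < C' ∧
    (∀ q ∈ A.S.M, r q ≤ C * (‖A.val s q‖ ^ 2 * Real.exp (-w q) ^ b)) ∧
    (∀ q ∈ A.S.M, ‖A.val s q‖ ^ 2 * Real.exp (-w q) ^ b ≤ C * r q) ∧
    ∀ y ∈ Bm.S.M, MvPolynomial.eval y.1 g ≠ 0 → ∃ ρ : ℝ, 0 < ρ ∧
      IsLUB {x | ∃ q ∈ A.S.M, H570.Base.phi ι A Bm q = y ∧ x = r q} ρ ∧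
      ρ ^ e * ∑ i, ‖Bm.val (h₁ i) y‖ ^ 2 ≤ C' * ∑ i, ‖Bm.val (h₂ i) y‖ ^ 2 ∧
      ∑ i, ‖Bm.val (h₂ i) y‖ ^ 2 ≤ C' * (ρ ^ e * ∑ i, ‖Bm.val (h₁ i) y‖ ^ 2)

/-- a non-zero member of a family, put at the first place -/
theorem exists_reorder {m : ℕ} {Bm : Mod k K₀} {h : Fin m → K₀} {y : (Fin k → ℂ) × ℕ}
    (hy : y ∈ Bm.S.M) (hpos : 0 < ∑ i, ‖Bm.val (h i) y‖ ^ 2) :
    ∃ (r : ℕ) (u : Fin (r + 1) → K₀), u 0 ≠ 0 ∧ (∀ i, ∃ j, u i = h j) ∧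
      ∀ f : K₀ → ℝ, ∑ i, f (u i) = ∑ i, f (h i) := by
  classical
  obtain ⟨i, -, hi⟩ := Finset.exists_lt_of_sum_lt (f := fun _ : Fin m => (0 : ℝ))
    (g := fun i => ‖Bm.val (h i) y‖ ^ 2) (s := Finset.univ) (by simpa using hpos)
  have hi0 : h i ≠ 0 := by
    intro h0
    rw [h0, Mod.val_zero hy] at hi
    simp at hi
  obtain ⟨r, rfl⟩ : ∃ r, m = r + 1 := ⟨m - 1, by have := i.pos; omega⟩
  refine ⟨r, fun j => h (Equiv.swap 0 i j), ?_, fun j => ⟨_, rfl⟩, fun f => ?_⟩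
  · simp only [Equiv.swap_apply_left]
    exact hi0
  · exact Equiv.sum_comp (Equiv.swap 0 i) fun j => f (h j)

end out

variable {n k : ℕ} {X : Type} [TopologicalSpace X] [T2Space X] [CompactSpace X]
  [ConnectedSpace X] [ChartedSpace (Cm n) X] [IsManifold 𝓘(ℂ, Cm n) ω X]
  {D : ProjData n X} [Algebra (Pol n) D.K] [IsScalarTower ℂ (Pol n) D.K]
  [FaithfulSMul (Pol n) D.K] [Algebra (FractionRing (Pol n)) D.K]
  [IsScalarTower (Pol n) (FractionRing (Pol n)) D.K]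
  [FiniteDimensional (FractionRing (Pol n)) D.K]
  {K₀ : Type} [Field K₀] [Algebra ℂ K₀] [Algebra (Pol k) K₀]
  [IsScalarTower ℂ (Pol k) K₀] [FaithfulSMul (Pol k) K₀] [Algebra K₀ D.K]
  {ι : Fin k ↪ Fin n} {A : Mod n D.K} {Bm : Mod k K₀}

/-- **the final model** -/
theorem Out51.shrink (B : D.Den A.E)
    (hden : ∀ E' : Prim n D.K, E'.y = A.E.y → A.E.h ∣ E'.h → Nonempty (D.Den E'))
    (P : H570.Base.Comp ι A Bm) (hgood : H570.Base.Good ι A Bm)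
    {φ : Chart n X → Cm n → ℝ} {s : D.K} (hs : A.IsReg s) {b e n₁ n₂ : ℕ} {g : Pol k}
    {h₁ : Fin n₁ → K₀} {h₂ : Fin n₂ → K₀}
    (h : Out51 ι A Bm (fun q => -B.brg.wt φ q) s b e g h₁ h₂) :
    ∃ (g' : Pol k) (hg' : g' ≠ 0) (ru rv : ℕ) (u : Fin (ru + 1) → K₀) (v : Fin (rv + 1) → K₀)
      (B' : D.Den (A.loc (MvPolynomial.rename ι g') (rename_ne_zero hg')).E),
      (∀ i, (Bm.loc g' hg').IsReg (u i)) ∧ (∀ i, (Bm.loc g' hg').IsReg (v i)) ∧ u 0 ≠ 0 ∧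
      v 0 ≠ 0 ∧ (Bm.loc g' hg').IsReg (u 0)⁻¹ ∧ (Bm.loc g' hg').IsReg (v 0)⁻¹ ∧
      Cmp (A.loc (MvPolynomial.rename ι g') (rename_ne_zero hg')).S (Bm.loc g' hg').S
        (H570.Base.phi ι (A.loc (MvPolynomial.rename ι g') (rename_ne_zero hg'))
          (Bm.loc g' hg')) (fun q => -B'.brg.wt φ q)
        ((A.loc (MvPolynomial.rename ι g') (rename_ne_zero hg')).val s) b e
        (fun y => ∑ i, ‖(Bm.loc g' hg').val (u i) y‖ ^ 2)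
        (fun y => ∑ i, ‖(Bm.loc g' hg').val (v i) y‖ ^ 2) := by
  classical
  obtain ⟨y₀, hy₀⟩ := mod_nonempty (Bm.loc g h.g0)
  obtain ⟨hy1, hy2⟩ := Mod.mem_loc.1 hy₀
  obtain ⟨ru, u, hu0, huj, hus⟩ := exists_reorder hy1 (h.pos₁ y₀ hy1 hy2)
  obtain ⟨rv, v, hv0, hvj, hvs⟩ := exists_reorder hy1 (h.pos₂ y₀ hy1 hy2)
  have hu : ∀ i, Bm.IsReg (u i) := fun i => by
    obtain ⟨j, hj⟩ := huj i; rw [hj]; exact h.reg₁ j
  have hv : ∀ i, Bm.IsReg (v i) := fun i => by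
    obtain ⟨j, hj⟩ := hvj i; rw [hj]; exact h.reg₂ j
  obtain ⟨g₁, hg₁, hr₁⟩ := Bm.exists_loc_isReg (u 0)⁻¹
  obtain ⟨g₂, hg₂, hr₂⟩ := Bm.exists_loc_isReg (v 0)⁻¹
  have hg' : g * (g₁ * g₂) ≠ 0 := mul_ne_zero h.g0 (mul_ne_zero hg₁ hg₂)
  obtain ⟨B'⟩ := hden (A.loc (MvPolynomial.rename ι (g * (g₁ * g₂))) (rename_ne_zero hg')).E rfl
    (dvd_mul_right _ _)
  refine ⟨g * (g₁ * g₂), hg', ru, rv, u, v, B', fun i => (hu i).loc _ _, fun i => (hv i).loc _ _,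
    hu0, hv0, ?_, ?_, ?_⟩
  · exact isReg_mul_of_dvd (E := Bm.E) (hg := hg₁) (hg' := hg')
      (Dvd.dvd.mul_left (dvd_mul_right _ _) _) hr₁
  · exact isReg_mul_of_dvd (E := Bm.E) (hg := hg₂) (hg' := hg')
      (Dvd.dvd.mul_left (dvd_mul_left _ _) _) hr₂
  -- the points of the smaller base
  have hmem : ∀ y ∈ (Bm.loc (g * (g₁ * g₂)) hg').S.M, y ∈ Bm.S.M ∧
      MvPolynomial.eval y.1 g ≠ 0 := by
    intro y hy
    obtain ⟨h3, h4⟩ := Mod.mem_loc.1 hy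
    rw [map_mul] at h4
    exact ⟨h3, left_ne_zero_of_mul h4⟩
  have hsu : ∀ y ∈ (Bm.loc (g * (g₁ * g₂)) hg').S.M,
      ∑ i, ‖(Bm.loc (g * (g₁ * g₂)) hg').val (u i) y‖ ^ 2 = ∑ i, ‖Bm.val (h₁ i) y‖ ^ 2 := by
    intro y hy
    rw [← hus fun a => ‖Bm.val a y‖ ^ 2]
    exact Finset.sum_congr rfl fun i _ => by rw [Mod.val_loc (hu i) hy]
  have hsv : ∀ y ∈ (Bm.loc (g * (g₁ * g₂)) hg').S.M,
      ∑ i, ‖(Bm.loc (g * (g₁ * g₂)) hg').val (v i) y‖ ^ 2 = ∑ i, ‖Bm.val (h₂ i) y‖ ^ 2 := by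
    intro y hy
    rw [← hvs fun a => ‖Bm.val a y‖ ^ 2]
    exact Finset.sum_congr rfl fun i _ => by rw [Mod.val_loc (hv i) hy]
  obtain ⟨r, C, C', hC, hC', h5, h6, h7⟩ := h.ex
  refine ⟨h.e_pos, fun y hy => ?_, r, C, C', hC, hC', fun q hq => ?_, fun q hq => ?_,
    fun y hy => ?_⟩
  · rw [hsu y hy]
    exact h.pos₁ y (hmem y hy).1 (hmem y hy).2
  · have hq' := (Mod.mem_loc.1 hq).1
    rw [Mod.val_loc hs hq, wt_loc B B' φ hq]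
    exact h5 q hq'
  · have hq' := (Mod.mem_loc.1 hq).1
    rw [Mod.val_loc hs hq, wt_loc B B' φ hq]
    exact h6 q hq'
  · obtain ⟨ρ, hρ, hlub, h8, h9⟩ := h7 y (hmem y hy).1 (hmem y hy).2
    refine ⟨ρ, hρ, ?_, ?_, ?_⟩
    · convert hlub using 1
      ext x
      constructor
      · rintro ⟨q, hq, hqy, rfl⟩
        exact ⟨q, (Mod.mem_loc.1 hq).1, by rw [← P.phi_loc hq]; exact hqy, rfl⟩
      · rintro ⟨q, hq, hqy, rfl⟩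
        have hq' : q ∈ (A.loc (MvPolynomial.rename ι (g * (g₁ * g₂)))
            (rename_ne_zero hg')).S.M := P.mem_loc_iff.2 ⟨hq, by rw [hqy]; exact hy⟩
        exact ⟨q, hq', by rw [P.phi_loc hq']; exact hqy, rfl⟩
    · rw [hsu y hy, hsv y hy]
      exact h8
    · rw [hsu y hy, hsv y hy]
      exact h9

end Vale.Agent.P299.H223
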