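import Vale.Agent.P299.H908.Tr
import Mathlib.FieldTheory.IsAlgClosed.Basic

/-!
# P299 : transcendence bases of subfields of the field of rational functions
-/

set_option linter.all false

open Cardinal Set
open Vale.Agent.P272.K Vale.Agent.P299.H908
open scoped Manifold ContDiff

noncomputable section

namespace Vale.Agent.P299.H223

variable {n : ℕ} {X : Type} [TopologicalSpace X] [ChartedSpace (Cm n) X] (D : ProjData n X)
  [PreconnectedSpace X] [CompactSpace X]

/-- a subfield different from `ℂ` has a finite non-empty transcendence basis -/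
theorem exists_trBasis (K0 : IntermediateField ℂ D.K) (h : K0 ≠ ⊥) :
    ∃ (k : ℕ) (z' : Fin k → K0), 0 < k ∧ IsTranscendenceBasis ℂ z' := by
  obtain ⟨s, hs⟩ := exists_isTranscendenceBasis ℂ K0
  have hinj : Function.Injective (K0.val : K0 →ₐ[ℂ] D.K) := K0.val.injective
  have h1 : AlgebraicIndependent ℂ (fun i : s => K0.val (i : K0)) := hs.1.map' hinj
  have h2 : #s ≤ n := by
    have := h1.cardinalMk_le_trdeg
    rwa [D.trdeg_eq] at this
  have hfin : Finite s := by
    rw [← Cardinal.lt_aleph0_iff_finite]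
    exact lt_of_le_of_lt h2 (Cardinal.natCast_lt_aleph0)
  obtain ⟨k, ⟨e⟩⟩ := Finite.exists_equiv_fin s
  refine ⟨k, fun i => (e.symm i : K0), ?_, hs.comp_equiv e.symm⟩
  by_contra hk
  apply h
  have hk0 : k = 0 := by omega
  subst hk0
  have hempty : IsEmpty s := e.isEmpty
  have halg : Algebra.IsAlgebraic ℂ K0 := hs.isEmpty_iff_isAlgebraic.1 hempty
  rw [eq_bot_iff]
  intro a ha
  obtain ⟨c, hc⟩ := (IsAlgClosed.algebraMap_bijective_of_isIntegral (k := ℂ) (K := K0)).2 ⟨a, ha⟩
  rw [IntermediateField.mem_bot]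
  exact ⟨c, congrArg (Subtype.val) hc⟩

end Vale.Agent.P299.H223
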