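import Vale.Agent.P299.H223.Pts
import Vale.Agent.P299.H223.ProjOf
import Vale.Agent.P299.H223.Final
import Vale.Agent.P299.H212.Bot

/-!
# P299, Part II : `PartIIStatement`
-/

set_option linter.all false

open scoped Manifold ContDiff ComplexOrder Matrix Topology ENNReal
open Vale.Agent.P272.K Vale.Agent.P299.D
open Vale.Agent.P299.H908 (ProjData)
open Vale.Agent.P282.L2 (Pol)

noncomputable section

namespace Vale.Agent.P299.H223

/-- **Part II**, from the existence of homogeneous representatives -/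
theorem partII_of (hom : ∀ (n : ℕ) (X : Type) [TopologicalSpace X] [T2Space X] [CompactSpace X]
    [ConnectedSpace X] [ChartedSpace (Cm n) X] [IsManifold 𝓘(ℂ, Cm n) ω X] (D : ProjData n X)
    [Algebra (Pol n) D.K] [IsScalarTower ℂ (Pol n) D.K]
    [FaithfulSMul (Pol n) D.K] [Algebra (FractionRing (Pol n)) D.K]
    [IsScalarTower (Pol n) (FractionRing (Pol n)) D.K]
    [FiniteDimensional (FractionRing (Pol n)) D.K], HomProp D) : PartIIStatement := by
  intro n X _ _ _ _ _ _ hX φ hφ hneg k hk
  obtain ⟨D⟩ := nonempty_projData hX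
  by_cases hbot : H212.kp D.K D.fm = ⊥
  · exact H212.bot_branch D hbot k hk
  · refine top_branch D hbot hφ hneg k hk (hom n X D) ?_
    intro _ _ _ _ _ _ k' _ _ _ ι
    exact ptsProp D (H212.kp D.K D.fm) (fun f hf => ⟨⟨f, hf⟩, rfl⟩) ι hφ

end Vale.Agent.P299.H223
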