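import Vale.Agent.P299.H223.Rho
import Vale.Agent.P299.H126.G5
import Vale.Agent.P299.H590.A.GSeq
import Vale.Agent.P299.H590.A.Pencil
import Vale.Agent.P299.H570.Base.ModGrowth
import Vale.Agent.P299.H570.Base.Lab
import Vale.Agent.P299.H908.Bridge

/-!
# P299, Part II : the last step, on the final model
-/

set_option linter.all false

open scoped Manifold ContDiff ComplexOrder Topology ENNReal
open Vale.Agent.P272.K MeasureTheory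
open Vale.Agent.P300.L2 Vale.Agent.P300.L2.Sheets Vale.Agent.P299.D
open Vale.Agent.P299.Pencil (Pt PB HP)
open Vale.Agent.P299.H908 (ProjData)
open Vale.Agent.P299.H340 (Mod)
open Vale.Agent.P282.L2 (Pol IsPartials)

noncomputable section

namespace Vale.Agent.P299.H223

section outs

variable {n N : ℕ}

/-- the output of (5.2): the plurisubharmonic weight `Ψ ~ log |u|² - log |v|²` -/
def PsiOut (S : Sheets n N) (p : (Fin n → ℂ) → ℝ) {ru rv : ℕ} (u : Fin (ru + 1) → Pt n → ℂ)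
    (v : Fin (rv + 1) → Pt n → ℂ) : Prop :=
  ∃ Ψ : ℕ → Pt n → ℝ, (∀ i, S.CD 2 (fun q => (Ψ i q : ℂ))) ∧
    (∀ i, ∀ q ∈ S.M, Ψ (i + 1) q ≤ Ψ i q) ∧
    (∀ i, ∀ q ∈ S.M, ∀ β : Fin n → ℂ, 0 ≤ S.levi (Ψ i) β q) ∧
    (∀ i, ∃ (c : ℝ) (k : ℕ), ∀ q ∈ S.M, Real.exp (-Ψ i q) ≤ c * (1 + p q.1) ^ k) ∧
    ∃ C : ℝ, 0 < C ∧ ∀ q ∈ S.M, H590.A.sq u q ≤ C * (H590.A.sq v q * limE Ψ q) ∧
      H590.A.sq v q * limE Ψ q ≤ C * H590.A.sq u q

/-- the output of (5.3): the weight `φ_s - ε (log |u|² + log |v|²)` -/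
def GOut (S : Sheets n N) (p : (Fin n → ℂ) → ℝ) (φ : Pt n → ℝ) {ru rv : ℕ}
    (u : Fin (ru + 1) → Pt n → ℂ) (v : Fin (rv + 1) → Pt n → ℂ) : Prop :=
  ∃ (d ε : ℝ) (G : ℕ → Pt n → ℝ), 0 < d ∧ d < 1 ∧ 0 < ε ∧
    (∀ i, S.CD 2 (fun q => (G i q : ℂ))) ∧
    (∀ i, ∀ q ∈ S.M, G (i + 1) q ≤ G i q) ∧
    (∀ i, ∀ q ∈ S.M, ∀ β : Fin n → ℂ, 0 ≤ S.levi (G i) β q) ∧
    (∀ i, ∃ (c : ℝ) (k : ℕ), ∀ q ∈ S.M, Real.exp (-G i q) ≤ c * (1 + p q.1) ^ k) ∧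
    (∀ q ∈ S.M, limE G q * (H590.A.sq u q * H590.A.sq v q) ^ ε ≤ Real.exp (φ q)) ∧
    ∫⁻ q, ENNReal.ofReal (Real.exp (-((1 - d) * φ q))) * H590.A.supc d G q *
      ENNReal.ofReal ((H590.A.sq u q * H590.A.sq v q) ^ (-(d * ε))) ∂S.μ < ⊤

end outs

variable {n k : ℕ} {X : Type} [TopologicalSpace X] [T2Space X] [CompactSpace X]
  [ConnectedSpace X] [ChartedSpace (Cm n) X] [IsManifold 𝓘(ℂ, Cm n) ω X]
  {D : ProjData n X} [Algebra (Pol n) D.K] [IsScalarTower ℂ (Pol n) D.K]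
  [FaithfulSMul (Pol n) D.K] [Algebra (FractionRing (Pol n)) D.K]
  [IsScalarTower (Pol n) (FractionRing (Pol n)) D.K]
  [FiniteDimensional (FractionRing (Pol n)) D.K]
  {K₀ : Type} [Field K₀] [Algebra ℂ K₀] [Algebra (Pol k) K₀]
  [IsScalarTower ℂ (Pol k) K₀] [FaithfulSMul (Pol k) K₀] [Algebra K₀ D.K]
  {ι : Fin k ↪ Fin n} {A : Mod n D.K} {Bm : Mod k K₀}

/-- **the last step** -/
theorem final_step (B : D.Den A.E) (P : H570.Base.Comp ι A Bm)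
    {φ : Chart n X → Cm n → ℝ} (hφ : IsCanonicalMetric φ)
    (hneg : ∀ e x, At e x → (-cHess (φ e) (e x)).PosSemidef)
    {d : Fin n → Derivation ℂ D.K D.K} (hd : IsPartials d)
    (hlow : ∃ (c : ℝ) (r : ℕ), ∀ q ∈ A.S.M, Real.exp (-(-B.brg.wt φ q)) ≤ c * (1 + A.p q.1) ^ r)
    (hup : ∃ (c : ℝ) (r : ℕ), ∀ q ∈ A.S.M, Real.exp (-B.brg.wt φ q) ≤ c * (1 + A.p q.1) ^ r)
    {s : D.K} (hs0 : s ≠ 0) (hs : A.IsReg s) (hsi : A.IsReg s⁻¹) {b₁ e : ℕ} (hb : 1 ≤ b₁)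
    {ru rv : ℕ} {u : Fin (ru + 1) → K₀} {v : Fin (rv + 1) → K₀}
    (hu : ∀ i, Bm.IsReg (u i)) (hv : ∀ i, Bm.IsReg (v i)) (hu0 : u 0 ≠ 0) (hv0 : v 0 ≠ 0)
    (hui : Bm.IsReg (u 0)⁻¹) (hvi : Bm.IsReg (v 0)⁻¹)
    (hcmp : Cmp A.S Bm.S (H570.Base.phi ι A Bm) (fun q => -B.brg.wt φ q) (A.val s) b₁ e
      (fun y => ∑ i, ‖Bm.val (u i) y‖ ^ 2) (fun y => ∑ i, ‖Bm.val (v i) y‖ ^ 2))
    (hΨ : PsiOut A.S A.p (fun i => A.val (algebraMap K₀ D.K (u i)))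
      (fun i => A.val (algebraMap K₀ D.K (v i))))
    (hG : GOut A.S A.p (fun q => -B.brg.wt φ q) (fun i => A.val (algebraMap K₀ D.K (u i)))
      (fun i => A.val (algebraMap K₀ D.K (v i)))) :
    ∃ m : ℕ, 0 < m ∧ ∃ s : Ten n 0 X, IsTen 0 m s ∧ TenNZ s := by
  classical
  have hN : H212.Thin (n := n) B.brg.Xoᶜ := by
    rw [B.brg_Xo]; exact B.thin_compl
  obtain ⟨C, k0, hp⟩ := A.exh
  obtain ⟨Ψ, hΨ1, hΨ2, hΨ3, hΨ4, hΨ5⟩ := hΨ
  obtain ⟨dd, ε, G, hd1, hd2, hε, hG1, hG2, hG3, hG4, hG5, hG6⟩ := hG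
  have hsq : ∀ {r : ℕ} (w : Fin (r + 1) → K₀), (∀ i, Bm.IsReg (w i)) → ∀ q ∈ A.S.M,
      H590.A.sq (fun i => A.val (algebraMap K₀ D.K (w i))) q =
        ∑ i, ‖Bm.val (w i) (H570.Base.phi ι A Bm q)‖ ^ 2 := by
    intro r w hw q hq
    unfold H590.A.sq
    refine Finset.sum_congr rfl fun i _ => ?_
    show ‖A.val (algebraMap K₀ D.K (w i)) q‖ ^ 2 = _
    rw [P.val hq (hw i)]
  have hne : ∀ {a : K₀}, a ≠ 0 → Bm.IsReg a → Bm.IsReg a⁻¹ →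
      ∀ q ∈ A.S.M, A.val (algebraMap K₀ D.K a) q ≠ 0 := by
    intro a ha h1 h2 q hq
    refine Mod.val_ne_zero_of_inv hq ?_ (P.reg h1) ?_
    · rw [ne_eq, map_eq_zero]; exact ha
    · rw [← map_inv₀]; exact P.reg h2
  have hinv : ∀ {a : K₀}, a ≠ 0 → Bm.IsReg a → Bm.IsReg a⁻¹ →
      PB A.S A.p (fun q => (A.val (algebraMap K₀ D.K a) q)⁻¹) := by
    intro a ha h1 h2
    obtain ⟨c, r, -, h3⟩ := Mod.growth (A := A) (P.reg h2)
    refine ⟨c, r, fun q hq => ?_⟩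
    show ‖(A.val (algebraMap K₀ D.K a) q)⁻¹‖ ≤ _
    rw [← Mod.val_inv hq (P.reg h1) (by rw [← map_inv₀]; exact P.reg h2), ← map_inv₀]
    exact h3 q hq
  let D5 : H590.A.Data5 A.S A.p :=
    { φ := fun q => -B.brg.wt φ q
      φ_cd := by
        have := (Sheets.CD.const (S := A.S) (m := 2) (-1)).mul (B.brg.wt_CD hφ 2)
        refine this.congr fun q _ => ?_
        push_cast
        ring
      φ_levi := fun q hq β => B.brg.neg_wt_levi_nonneg hφ hneg β hq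
      φ_low := hlow
      φ_up := hup
      φ_const := fun F hF hL => H126.hconst hN hφ F hF hL
      s := A.val s
      s_holo := Mod.holo_val hs
      s_ne := fun q hq => Mod.val_ne_zero_of_inv hq hs0 hs hsi
      b₁ := b₁
      e := e
      ru := ru
      u := fun i => A.val (algebraMap K₀ D.K (u i))
      u_hp := fun i => H570.hp_val hd (P.reg (hu i))
      u_ne := hne hu0 (hu 0) hui
      u_inv := hinv hu0 (hu 0) hui
      rv := rv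
      v := fun i => A.val (algebraMap K₀ D.K (v i))
      v_hp := fun i => H570.hp_val hd (P.reg (hv i))
      v_ne := hne hv0 (hv 0) hvi
      v_inv := hinv hv0 (hv 0) hvi
      s_le := by
        obtain ⟨C, hC⟩ := hcmp.s_le fun q hq => P.maps hq
        refine ⟨C, fun q hq => ?_⟩
        rw [hsq u hu q hq, hsq v hv q hq]
        exact hC q hq
      Ψ := Ψ
      Ψ_cd := hΨ1
      Ψ_anti := hΨ2
      Ψ_levi := hΨ3
      Ψ_low := hΨ4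
      Ψ_lim := hΨ5
      d := dd
      d_pos := hd1
      d_lt := hd2
      ε := ε
      ε_pos := hε
      G := G
      G_cd := hG1
      G_anti := hG2
      G_levi := hG3
      G_low := hG4
      G_le := hG5
      G_int := hG6 }
  obtain ⟨CG, hCG⟩ := H570.mod_growth A
  have hMne : A.S.M.Nonempty := by
    obtain ⟨x0, hx0⟩ := D.aff_nonempty
    obtain ⟨x, -, hx⟩ := B.exists_mem_X0 hx0 Filter.univ_mem
    exact ⟨_, B.th_mem hx⟩
  obtain ⟨m, hm, F, hF, hF0, hFL⟩ := D5.section_exists hp (A := CG) hCG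
    (fun k F hF => H570.mod_hp A hd hF) hMne
  obtain ⟨s', hs', hs'0⟩ := H126.exists_section (b := m * e * b₁) hN hφ hF hF0 hFL
  refine ⟨m * e * b₁, ?_, s', hs', hs'0⟩
  have := hcmp.e_pos
  positivity

end Vale.Agent.P299.H223
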