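import Vale.Agent.P299.H223.Psi
import Vale.Agent.P299.H223.Psef
import Vale.Agent.P299.H223.Shrink
import Vale.Agent.P299.H212.Main51

/-!
# P299, Part II : from compatible models and (5.1) to the section
-/

set_option linter.all false

open scoped Manifold ContDiff ComplexOrder Matrix Topology ENNReal
open Vale.Agent.P272.K MeasureTheory
open Vale.Agent.P300.L2 Vale.Agent.P299.D
open Vale.Agent.P299.Pencil (Pt PB HP)
open Vale.Agent.P299.H908 (ProjData)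
open Vale.Agent.P299.H340 (Mod)
open Vale.Agent.P299.H570.Base (rename_ne_zero isReg_mul_of_dvd)
open Vale.Agent.P282.L2 (Pol Prim IsPartials)

noncomputable section

namespace Vale.Agent.P299.H223

variable {n k : ℕ} {X : Type} [TopologicalSpace X] [T2Space X] [CompactSpace X]
  [ConnectedSpace X] [ChartedSpace (Cm n) X] [IsManifold 𝓘(ℂ, Cm n) ω X]
  {D : ProjData n X} [Algebra (Pol n) D.K] [IsScalarTower ℂ (Pol n) D.K]
  [FaithfulSMul (Pol n) D.K] [Algebra (FractionRing (Pol n)) D.K]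
  [IsScalarTower (Pol n) (FractionRing (Pol n)) D.K]
  [FiniteDimensional (FractionRing (Pol n)) D.K]
  {K₀ : Type} [Field K₀] [Algebra ℂ K₀] [Algebra (Pol k) K₀]
  [IsScalarTower ℂ (Pol k) K₀] [FaithfulSMul (Pol k) K₀] [Algebra K₀ D.K]
  [IsScalarTower ℂ K₀ D.K]
  {ι : Fin k ↪ Fin n}

variable (D) in
/-- homogeneous representatives of families of elements of `K'` -/
def HomProp : Prop :=
  ∀ (A : Mod n D.K) (B : D.Den A.E) (r : ℕ) (h : Fin r → D.K), (∀ i, h i ∈ H212.kp D.K D.fm) →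
    (∀ i, A.IsReg (h i)) → ∀ i₀, h i₀ ≠ 0 → A.IsReg (h i₀)⁻¹ →
    ∃ (d : ℕ) (P : Fin r → MvPolynomial (Fin (D.N + 1)) ℂ), (∀ i, (P i).IsHomogeneous d) ∧
      (∀ w, IsKahler w → RicNonneg w → ∀ e x, At e x → x ∈ OmP D P →
        (∀ e' y, At e' y → (ric w e' (e' y)).rank ≤ (ric w e (e x)).rank) →
        ∀ v, ric w e (e x) *ᵥ v = 0 → beP D P e (e x) *ᵥ v = 0) ∧
      B.brg.Xo ⊆ OmP D P ∧
      ∀ q ∈ A.S.M, ∀ β : Fin n → ℂ,
        A.S.levi (fun q => Real.log (∑ l, ‖A.val (h l) q‖ ^ 2)) β q = B.brg.frm (beP D P) β q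

/-- **the section, on the final models** -/
theorem model_final (hk : 0 < k) {A : Mod n D.K} {Bm : Mod k K₀} (B : D.Den A.E)
    (P : H570.Base.Comp ι A Bm) (hgood : H570.Base.Good ι A Bm)
    (hK : ∀ f : D.K, f ∈ H212.kp D.K D.fm ↔ ∃ a : K₀, algebraMap K₀ D.K a = f)
    {φ : Chart n X → Cm n → ℝ} (hφ : IsCanonicalMetric φ)
    (hneg : ∀ e x, At e x → (-cHess (φ e) (e x)).PosSemidef)
    (hex : ∃ (A : Mod n D.K) (B : H216.Brg A.S X), H212.Cmp A B)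
    {s : D.K} (hs0 : s ≠ 0) (hs : A.IsReg s) (hsi : A.IsReg s⁻¹) {b₁ e : ℕ} (hb : 0 < b₁)
    (hgen : ∀ (b : ℤ) (f : D.K), f ≠ 0 → (H212.compData hex).Lb b f →
      ∃ (j : ℤ) (g : D.K), b = j * b₁ ∧ g ∈ H212.kp D.K D.fm ∧ g ≠ 0 ∧ f = s ^ j * g)
    {ru rv : ℕ} {u : Fin (ru + 1) → K₀} {v : Fin (rv + 1) → K₀}
    (hu : ∀ i, Bm.IsReg (u i)) (hv : ∀ i, Bm.IsReg (v i)) (hu0 : u 0 ≠ 0) (hv0 : v 0 ≠ 0)
    (hui : Bm.IsReg (u 0)⁻¹) (hvi : Bm.IsReg (v 0)⁻¹)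
    (hcmp : Cmp A.S Bm.S (H570.Base.phi ι A Bm) (fun q => -B.brg.wt φ q) (A.val s) b₁ e
      (fun y => ∑ i, ‖Bm.val (u i) y‖ ^ 2) (fun y => ∑ i, ‖Bm.val (v i) y‖ ^ 2))
    (hom : HomProp D) :
    ∃ m : ℕ, 0 < m ∧ ∃ s : Ten n 0 X, IsTen 0 m s ∧ TenNZ s := by
  obtain ⟨d, hd⟩ := Vale.Agent.P282.Full.exists_partials n D.K
  have hcont : ∀ e x, At e x → ContinuousAt (φ e) (e x) := fun e x h =>
    (hφ.smooth e x h).continuousAt
  obtain ⟨c₁, r₁, -, hup⟩ := H212.gr_exp_wt (H212.cmp_brg B) hcont hφ.change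
  obtain ⟨c₂, r₂, -, hlow⟩ := H212.gr_exp_neg_wt (H212.cmp_brg B) hcont hφ.change
  have hup' : ∃ (c : ℝ) (r : ℕ), ∀ q ∈ A.S.M,
      Real.exp (-(-B.brg.wt φ q)) ≤ c * (1 + A.p q.1) ^ r :=
    ⟨c₁, r₁, fun q hq => by rw [neg_neg]; exact hup q hq⟩
  have hgen' : ∀ (b : ℤ) (f : D.K), f ≠ 0 → (H212.compData hex).Lb b f →
      ∃ (j : ℤ) (g : D.K), b = j * b₁ ∧ (H212.compData hex).Lb 0 g ∧ g ≠ 0 ∧ f = s ^ j * g := by
    intro b f hf hb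
    obtain ⟨j, g, h1, h2, h3, h4⟩ := hgen b f hf hb
    exact ⟨j, g, h1, (H212.Lb_zero_iff hex).2 h2, h3, h4⟩
  have hΨ := psiOut hk B P hgood hK hφ hneg hup' hex hs0 hs hsi hb hgen' hu hv hu0 hv0 hui
    hvi hcmp
  -- the weight of (5.3)
  have hru : ∀ i, A.IsReg (algebraMap K₀ D.K (u i)) := fun i => P.reg (hu i)
  have hrv : ∀ i, A.IsReg (algebraMap K₀ D.K (v i)) := fun i => P.reg (hv i)
  have hrui : A.IsReg (algebraMap K₀ D.K (u 0))⁻¹ := by rw [← map_inv₀]; exact P.reg hui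
  have hrvi : A.IsReg (algebraMap K₀ D.K (v 0))⁻¹ := by rw [← map_inv₀]; exact P.reg hvi
  have hu0' : algebraMap K₀ D.K (u 0) ≠ 0 := by rw [ne_eq, map_eq_zero]; exact hu0
  have hv0' : algebraMap K₀ D.K (v 0) ≠ 0 := by rw [ne_eq, map_eq_zero]; exact hv0
  obtain ⟨dd, Q, hQ, hker, hOm, hlev⟩ := hom A B _
    (prf (fun i => algebraMap K₀ D.K (u i)) fun i => algebraMap K₀ D.K (v i))
    (fun l => by
      rw [hK]
      exact ⟨u (finProdFinEquiv.symm l).1 * v (finProdFinEquiv.symm l).2, by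
        rw [map_mul]; rfl⟩)
    (fun l => Mod.IsReg.mul (hru _) (hrv _)) (finProdFinEquiv (0, 0))
    (by rw [prf_zero]; exact mul_ne_zero hu0' hv0')
    (by rw [prf_zero, mul_inv]; exact Mod.IsReg.mul hrui hrvi)
  have hG := gOut_of B hφ hneg hru hrv hu0' hv0' hrui hrvi hQ hker hOm hlev
  exact final_step B P hφ hneg hd hup' ⟨c₂, r₂, hlow⟩ hs0 hs hsi hb hu hv hu0 hv0 hui hvi
    hcmp hΨ hG

/-- **from (5.1) on compatible models to the section** -/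
theorem model_step (hk : 0 < k) {A : Mod n D.K} {Bm : Mod k K₀} (B : D.Den A.E)
    (hden : ∀ E' : Prim n D.K, E'.y = A.E.y → A.E.h ∣ E'.h → Nonempty (D.Den E'))
    (P : H570.Base.Comp ι A Bm) (hgood : H570.Base.Good ι A Bm)
    (hK : ∀ f : D.K, f ∈ H212.kp D.K D.fm ↔ ∃ a : K₀, algebraMap K₀ D.K a = f)
    {φ : Chart n X → Cm n → ℝ} (hφ : IsCanonicalMetric φ)
    (hneg : ∀ e x, At e x → (-cHess (φ e) (e x)).PosSemidef)
    (hex : ∃ (A : Mod n D.K) (B : H216.Brg A.S X), H212.Cmp A B)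
    {s : D.K} (hs0 : s ≠ 0) (hs : A.IsReg s) (hsi : A.IsReg s⁻¹) {b₁ : ℕ} (hb : 0 < b₁)
    (hgen : ∀ (b : ℤ) (f : D.K), f ≠ 0 → (H212.compData hex).Lb b f →
      ∃ (j : ℤ) (g : D.K), b = j * b₁ ∧ g ∈ H212.kp D.K D.fm ∧ g ≠ 0 ∧ f = s ^ j * g)
    {e n₁ n₂ : ℕ} {g : Pol k} {h₁ : Fin n₁ → K₀} {h₂ : Fin n₂ → K₀}
    (h51 : Out51 ι A Bm (fun q => -B.brg.wt φ q) s b₁ e g h₁ h₂)
    (hom : HomProp D) :
    ∃ m : ℕ, 0 < m ∧ ∃ s : Ten n 0 X, IsTen 0 m s ∧ TenNZ s := by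
  obtain ⟨g', hg', ru, rv, u, v, B', hu, hv, hu0, hv0, hui, hvi, hcmp⟩ :=
    h51.shrink B hden P hgood hs
  exact model_final hk B' (P.loc g' hg') (hgood.loc g' hg') hK hφ hneg hex hs0 (hs.loc _ _)
    (hsi.loc _ _) hb hgen hu hv hu0 hv0 hui hvi hcmp hom

end Vale.Agent.P299.H223
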