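import Vale.Agent.P299.H223.Top2
import Vale.Agent.P299.H223.Tb
import Vale.Agent.P299.H340.Model.BaseFin

/-!
# P299, Part II : the case `K' ≠ ℂ`
-/

set_option linter.all false

open scoped Manifold ContDiff ComplexOrder Matrix Topology ENNReal
open Vale.Agent.P272.K MeasureTheory
open Vale.Agent.P300.L2 Vale.Agent.P299.D
open Vale.Agent.P299.H908 (ProjData)
open Vale.Agent.P299.H340 (Mod)
open Vale.Agent.P299.H570.Base (rename_ne_zero isReg_mul_of_dvd)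
open Vale.Agent.P282.L2 (Pol Prim IsPartials)

noncomputable section

namespace Vale.Agent.P299.H223

variable {n : ℕ} {X : Type} [TopologicalSpace X] [T2Space X] [CompactSpace X]
  [ConnectedSpace X] [ChartedSpace (Cm n) X] [IsManifold 𝓘(ℂ, Cm n) ω X]
  (D : ProjData n X)

/-- the algebraic comparison (5.1) on compatible models -/
def PtsProp [Algebra (Pol n) D.K] [IsScalarTower ℂ (Pol n) D.K]
    [FaithfulSMul (Pol n) D.K] [Algebra (FractionRing (Pol n)) D.K]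
    [IsScalarTower (Pol n) (FractionRing (Pol n)) D.K]
    [FiniteDimensional (FractionRing (Pol n)) D.K] {k : ℕ} (K₀ : Type) [Field K₀] [Algebra ℂ K₀]
    [Algebra (Pol k) K₀] [IsScalarTower ℂ (Pol k) K₀] [FaithfulSMul (Pol k) K₀] [Algebra K₀ D.K]
    (ι : Fin k ↪ Fin n) (φ : Chart n X → Cm n → ℝ) : Prop :=
  ∀ (A : Mod n D.K) (Bm : Mod k K₀) (B : D.Den A.E), H570.Base.Comp ι A Bm →
    H570.Base.Good ι A Bm → ∀ (s : D.K) (b₁ : ℕ), s ≠ 0 → A.IsReg s → A.IsReg s⁻¹ → 0 < b₁ →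
    (∃ (p N₀ : ℕ) (σ₀ : Ten n p X), IsTen p N₀ σ₀ ∧ TenNZ σ₀ ∧ ∀ j₀ : ℕ, ∃ j ≥ j₀,
      ∃ (σ : Ten n p X) (g : D.K), IsTen p (N₀ + j * b₁) σ ∧ g ∈ H212.kp D.K D.fm ∧ g ≠ 0 ∧
        ∀ I, H212.compK (D := D) (N₀ + j * b₁) σ I = s ^ j * g * H212.compK N₀ σ₀ I) →
    ∃ (e n₁ n₂ : ℕ) (g : Pol k) (h₁ : Fin n₁ → K₀) (h₂ : Fin n₂ → K₀),
      Out51 ι A Bm (fun q => -B.brg.wt φ q) s b₁ e g h₁ h₂

theorem top_of_base {K₀ : Type} [Field K₀] [Algebra ℂ K₀] [Algebra K₀ D.K]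
    [IsScalarTower ℂ K₀ D.K]
    (hK : ∀ f : D.K, f ∈ H212.kp D.K D.fm ↔ ∃ a : K₀, algebraMap K₀ D.K a = f)
    {k : ℕ} (hk : 0 < k) {z' : Fin k → K₀} (hz' : IsTranscendenceBasis ℂ z')
    {φ : Chart n X → Cm n → ℝ} (hφ : IsCanonicalMetric φ)
    (hneg : ∀ e x, At e x → (-cHess (φ e) (e x)).PosSemidef) (κ : ℕ)
    (hinf : ∀ m₀ : ℕ, ∃ m : ℕ, m₀ ≤ m ∧ ∃ s : Ten n κ X, IsTen κ m s ∧ TenNZ s)
    (hom : ∀ [Algebra (Pol n) D.K] [IsScalarTower ℂ (Pol n) D.K]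
      [FaithfulSMul (Pol n) D.K] [Algebra (FractionRing (Pol n)) D.K]
      [IsScalarTower (Pol n) (FractionRing (Pol n)) D.K]
      [FiniteDimensional (FractionRing (Pol n)) D.K], HomProp D)
    (pts : ∀ [Algebra (Pol n) D.K] [IsScalarTower ℂ (Pol n) D.K]
      [FaithfulSMul (Pol n) D.K] [Algebra (FractionRing (Pol n)) D.K]
      [IsScalarTower (Pol n) (FractionRing (Pol n)) D.K]
      [FiniteDimensional (FractionRing (Pol n)) D.K] [Algebra (Pol k) K₀]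
      [IsScalarTower ℂ (Pol k) K₀] [FaithfulSMul (Pol k) K₀] (ι : Fin k ↪ Fin n),
      PtsProp D K₀ ι φ) :
    ∃ m : ℕ, 0 < m ∧ ∃ s : Ten n 0 X, IsTen 0 m s ∧ TenNZ s := by
  classical
  have hz'' : AlgebraicIndependent ℂ (fun i => algebraMap K₀ D.K (z' i)) :=
    hz'.1.map' (f := IsScalarTower.toAlgHom ℂ K₀ D.K) (algebraMap K₀ D.K).injective
  obtain ⟨z, ι, hz, -, hzι⟩ := D.exists_extend hz''
  obtain ⟨i1, i2, i3, i4, i5, i6, hX⟩ := D.exists_instances hz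
  obtain ⟨j1, j2, j3, j4, j5, hY⟩ := H908.exists_pol_algebra hz'.1
  have hvar : H340.Var ι K₀ D.K := by
    intro i
    rw [hY, hX, hzι]
  haveI := H340.isAlgebraic_of_basis hz' hY
  haveI := H340.finiteDimensional_base hvar
  obtain ⟨A₀⟩ := H340.exists_mod n D.K
  obtain ⟨B₀⟩ := H340.exists_mod k K₀
  obtain ⟨c, hc, hden⟩ := D.exists_den A₀.E 1 one_ne_zero
  have hex : ∃ (A : Mod n D.K) (B : H216.Brg A.S X), H212.Cmp A B := by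
    obtain ⟨B, -⟩ := hden (A₀.loc c hc).E rfl (dvd_mul_left _ _)
    exact ⟨A₀.loc c hc, B.brg, H212.cmp_brg B⟩
  obtain ⟨b₁, s, hb₁, hs, -, hgen, hσ⟩ := H212.exists_s_kp hex κ hinf
  obtain ⟨g, hg, g', hg', hcg, -, hreg, -, P, hgood⟩ := H570.Base.exists_base A₀ B₀ ι
    (fun f => hvar.map_alg f) {s, s⁻¹} ∅ c hc 1 one_ne_zero
  have hch : c ∣ (A₀.loc g hg).E.h := hcg.trans (dvd_mul_left _ _)
  obtain ⟨B, -⟩ := hden (A₀.loc g hg).E rfl hch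
  have hs1 : (A₀.loc g hg).IsReg s := hreg _ (by simp)
  have hs2 : (A₀.loc g hg).IsReg s⁻¹ := hreg _ (by simp)
  obtain ⟨e, n₁, n₂, g₁, h₁, h₂, h51⟩ := pts ι (A₀.loc g hg) (B₀.loc g' hg') B P hgood s b₁ hs
    hs1 hs2 hb₁ hσ
  refine model_step hk B (fun E' hy hh => ?_) P hgood hK hφ hneg hex hs hs1 hs2 hb₁ hgen h51 hom
  obtain ⟨B', -⟩ := hden E' hy (hch.trans hh)
  exact ⟨B'⟩

/-- **the case `K' ≠ ℂ`** -/
theorem top_branch (hbot : H212.kp D.K D.fm ≠ ⊥)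
    {φ : Chart n X → Cm n → ℝ} (hφ : IsCanonicalMetric φ)
    (hneg : ∀ e x, At e x → (-cHess (φ e) (e x)).PosSemidef) (κ : ℕ)
    (hinf : ∀ m₀ : ℕ, ∃ m : ℕ, m₀ ≤ m ∧ ∃ s : Ten n κ X, IsTen κ m s ∧ TenNZ s)
    (hom : ∀ [Algebra (Pol n) D.K] [IsScalarTower ℂ (Pol n) D.K]
      [FaithfulSMul (Pol n) D.K] [Algebra (FractionRing (Pol n)) D.K]
      [IsScalarTower (Pol n) (FractionRing (Pol n)) D.K]
      [FiniteDimensional (FractionRing (Pol n)) D.K], HomProp D)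
    (pts : ∀ [Algebra (Pol n) D.K] [IsScalarTower ℂ (Pol n) D.K]
      [FaithfulSMul (Pol n) D.K] [Algebra (FractionRing (Pol n)) D.K]
      [IsScalarTower (Pol n) (FractionRing (Pol n)) D.K]
      [FiniteDimensional (FractionRing (Pol n)) D.K] (k : ℕ)
      [Algebra (Pol k) (H212.kp D.K D.fm)]
      [IsScalarTower ℂ (Pol k) (H212.kp D.K D.fm)] [FaithfulSMul (Pol k) (H212.kp D.K D.fm)]
      (ι : Fin k ↪ Fin n), PtsProp D (H212.kp D.K D.fm) ι φ) :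
    ∃ m : ℕ, 0 < m ∧ ∃ s : Ten n 0 X, IsTen 0 m s ∧ TenNZ s := by
  obtain ⟨k, z', hk, hz'⟩ := exists_trBasis D (H212.kp D.K D.fm) hbot
  exact top_of_base D (K₀ := H212.kp D.K D.fm)
    (fun f => ⟨fun hf => ⟨⟨f, hf⟩, rfl⟩, fun ⟨a, ha⟩ => ha ▸ a.2⟩) hk hz' hφ hneg κ hinf hom
    (fun ι => pts k ι)

end Vale.Agent.P299.H223
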